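import Mathlib

/-!
# P047: definitions used in the statement
-/

namespace P047

/-- The Fourier coefficient `E[f(X) ∏_{i ∈ S} X_i]` of `f : {-1,1}^n → {-1,1}`. -/
noncomputable def coeff {n : ℕ} (f : (Fin n → ℤˣ) → ℤˣ) (S : Finset (Fin n)) : ℝ :=
  (∑ x : Fin n → ℤˣ, ((f x : ℤ) : ℝ) * ∏ i ∈ S, ((x i : ℤ) : ℝ)) / 2 ^ n

/-- The degree of `f`: the largest size of a set `S` with nonzero Fourier coefficient. -/
noncomputable def deg {n : ℕ} (f : (Fin n → ℤˣ) → ℤˣ) : ℕ :=
  open Classical in (Finset.univ.filter (fun S : Finset (Fin n) => coeff f S ≠ 0)).sup Finset.card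

/-- The sum of the `n` degree-one Fourier coefficients of `f`. -/
noncomputable def levelOne {n : ℕ} (f : (Fin n → ℤˣ) → ℤˣ) : ℝ :=
  ∑ i : Fin n, coeff f {i}

/-- All values of `levelOne f`, over all `n ≥ 1` and all `f : {-1,1}^n → {-1,1}` of degree at
most `d`. -/
def values (d : ℕ) : Set ℝ :=
  {s | ∃ n : ℕ, 1 ≤ n ∧ ∃ f : (Fin n → ℤˣ) → ℤˣ, deg f ≤ d ∧ s = levelOne f}

/-- `M(d)`, the supremum of `levelOne f` over Boolean functions of degree at most `d`. -/
noncomputable def M (d : ℕ) : ℝ := sSup (values d)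

end P047
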