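import Mathlib
import Vale.Agent.P047.Defs

/-!
# P047: Fourier analysis on the cube with a common bias
-/

open Finset

namespace P047

section general

variable {ι : Type} [Fintype ι] [DecidableEq ι]

/-- real value of a sign -/
noncomputable def rv (a : ℤˣ) : ℝ := ((a : ℤ) : ℝ)

@[simp] lemma rv_one : rv 1 = 1 := by simp [rv]
@[simp] lemma rv_neg_one : rv (-1) = -1 := by simp [rv]
@[simp] lemma rv_neg (a : ℤˣ) : rv (-a) = -rv a := by simp [rv]
lemma rv_mul (a b : ℤˣ) : rv (a * b) = rv a * rv b := by simp [rv]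

lemma rv_cases (a : ℤˣ) : rv a = 1 ∨ rv a = -1 := by
  rcases Int.units_eq_one_or a with h | h <;> simp [h]

lemma rv_sq (a : ℤˣ) : rv a * rv a = 1 := by
  rcases rv_cases a with h | h <;> simp [h]

lemma sum_units (g : ℤˣ → ℝ) : ∑ a : ℤˣ, g a = g 1 + g (-1) := by
  rw [UnitsInt.univ]
  rw [Finset.sum_insert (by decide), Finset.sum_singleton]

lemma sum_prod (g : ι → ℤˣ → ℝ) :
    ∑ x : ι → ℤˣ, ∏ i, g i (x i) = ∏ i, (g i 1 + g i (-1)) := by
  have h := (Finset.prod_univ_sum (fun _ : ι => (Finset.univ : Finset ℤˣ)) g)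
  rw [Fintype.piFinset_univ] at h
  rw [← h]
  exact Finset.prod_congr rfl (fun i _ => sum_units _)

/-- expectation under the product measure with mean `y` -/
noncomputable def E (y : ℝ) (f : (ι → ℤˣ) → ℝ) : ℝ :=
  ∑ x : ι → ℤˣ, (∏ i, (1 + y * rv (x i)) / 2) * f x

/-- biased characters -/
noncomputable def psi (y : ℝ) (T : Finset ι) (x : ι → ℤˣ) : ℝ := ∏ i ∈ T, (rv (x i) - y)

lemma E_sum {α : Type} (y : ℝ) (s : Finset α) (f : α → (ι → ℤˣ) → ℝ) :
    E y (fun x => ∑ a ∈ s, f a x) = ∑ a ∈ s, E y (f a) := by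
  unfold E
  rw [Finset.sum_comm]
  refine Finset.sum_congr rfl fun x _ => ?_
  rw [Finset.mul_sum]

lemma E_mul_left (y c : ℝ) (f : (ι → ℤˣ) → ℝ) :
    E y (fun x => c * f x) = c * E y f := by
  unfold E
  rw [Finset.mul_sum]
  refine Finset.sum_congr rfl fun x _ => ?_
  ring

lemma E_add (y : ℝ) (f g : (ι → ℤˣ) → ℝ) :
    E y (fun x => f x + g x) = E y f + E y g := by
  unfold E
  rw [← Finset.sum_add_distrib]
  refine Finset.sum_congr rfl fun x _ => ?_
  ring

lemma weight_nonneg {y : ℝ} (h0 : -1 ≤ y) (h1 : y ≤ 1) (x : ι → ℤˣ) :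
    0 ≤ ∏ i, (1 + y * rv (x i)) / 2 := by
  refine Finset.prod_nonneg fun i _ => ?_
  rcases rv_cases (x i) with h | h <;> rw [h] <;> linarith

lemma E_mono {y : ℝ} (h0 : -1 ≤ y) (h1 : y ≤ 1) {f g : (ι → ℤˣ) → ℝ} (h : ∀ x, f x ≤ g x) :
    E y f ≤ E y g := by
  unfold E
  exact Finset.sum_le_sum fun x _ => mul_le_mul_of_nonneg_left (h x) (weight_nonneg h0 h1 x)

lemma E_prod (y : ℝ) (g : ι → ℤˣ → ℝ) :
    E y (fun x => ∏ i, g i (x i)) = ∏ i, ((1 + y) / 2 * g i 1 + (1 - y) / 2 * g i (-1)) := by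
  unfold E
  have : ∀ x : ι → ℤˣ, (∏ i, (1 + y * rv (x i)) / 2) * (∏ i, g i (x i))
      = ∏ i, ((1 + y * rv (x i)) / 2 * g i (x i)) := fun x => by rw [Finset.prod_mul_distrib]
  simp only [this]
  rw [sum_prod (fun i a => (1 + y * rv a) / 2 * g i a)]
  refine Finset.prod_congr rfl fun i _ => ?_
  simp only [rv_one, rv_neg_one]
  ring

lemma E_const (y c : ℝ) : E y (fun _ : ι → ℤˣ => c) = c := by
  have h := E_prod (ι := ι) y (fun _ _ => 1)
  simp only [Finset.prod_const_one, mul_one] at h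
  have h2 : (∏ _i : ι, ((1 + y) / 2 + (1 - y) / 2)) = 1 := by
    apply Finset.prod_eq_one; intro i _; ring
  rw [h2] at h
  have := E_mul_left (ι := ι) y c (fun _ => 1)
  rw [h] at this
  simpa using this

lemma psi_eq_prod (y : ℝ) (T : Finset ι) (x : ι → ℤˣ) :
    psi y T x = ∏ i, (if i ∈ T then rv (x i) - y else 1) := by
  unfold psi
  rw [Finset.prod_ite_mem, Finset.univ_inter]

lemma E_psi_mul_psi (y : ℝ) (T U : Finset ι) :
    E y (fun x => psi y T x * psi y U x) = if T = U then (1 - y ^ 2) ^ T.card else 0 := by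
  have h1 : (fun x : ι → ℤˣ => psi y T x * psi y U x) =
      fun x => ∏ i, ((if i ∈ T then rv (x i) - y else 1) * (if i ∈ U then rv (x i) - y else 1)) := by
    funext x
    rw [psi_eq_prod, psi_eq_prod, Finset.prod_mul_distrib]
  rw [h1, E_prod y (fun i a => (if i ∈ T then rv a - y else 1) * (if i ∈ U then rv a - y else 1))]
  split_ifs with h
  · subst h
    have : ∀ i : ι, ((1 + y) / 2 * ((if i ∈ T then rv 1 - y else 1) * (if i ∈ T then rv 1 - y else 1))
        + (1 - y) / 2 * ((if i ∈ T then rv (-1) - y else 1) * (if i ∈ T then rv (-1) - y else 1)))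
        = if i ∈ T then (1 - y ^ 2) else 1 := by
      intro i
      simp only [rv_one, rv_neg_one]
      split_ifs <;> ring
    simp only [this]
    rw [Finset.prod_ite_mem, Finset.univ_inter, Finset.prod_const]
  · have : ∃ i, ¬ (i ∈ T ↔ i ∈ U) := by
      by_contra hc
      push Not at hc
      exact h (Finset.ext hc)
    obtain ⟨i, hi⟩ := this
    apply Finset.prod_eq_zero (Finset.mem_univ i)
    simp only [rv_one, rv_neg_one]
    by_cases h1 : i ∈ T <;> by_cases h2 : i ∈ U
    · exact absurd (iff_of_true h1 h2) hi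
    · simp only [h1, h2, if_true, if_false]; ring
    · simp only [h1, h2, if_true, if_false]; ring
    · exact absurd (iff_of_false h1 h2) hi

/-- Unbiased Fourier coefficient of a real function. -/
noncomputable def fh (f : (ι → ℤˣ) → ℝ) (S : Finset ι) : ℝ :=
  E 0 (fun x => f x * psi 0 S x)

lemma E_zero_eq (f : (ι → ℤˣ) → ℝ) : E 0 f = (∑ x, f x) / 2 ^ Fintype.card ι := by
  unfold E
  simp only [zero_mul, add_zero, Finset.prod_const, Finset.card_univ]
  rw [← Finset.mul_sum, div_pow, one_pow]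
  field_simp

/-- Fourier inversion. -/
lemma inversion (f : (ι → ℤˣ) → ℝ) (x : ι → ℤˣ) :
    f x = ∑ S : Finset ι, fh f S * psi 0 S x := by
  have key : ∀ z : ι → ℤˣ, ∑ S : Finset ι, psi 0 S z * psi 0 S x
      = if z = x then 2 ^ Fintype.card ι else 0 := by
    intro z
    have h1 : ∀ S : Finset ι, psi 0 S z * psi 0 S x = ∏ i ∈ S, (rv (z i) * rv (x i)) := by
      intro S
      simp only [psi, sub_zero]
      rw [Finset.prod_mul_distrib]
    simp only [h1]
    have h2 : ∑ S : Finset ι, ∏ i ∈ S, (rv (z i) * rv (x i)) = ∏ i, (1 + rv (z i) * rv (x i)) := by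
      rw [Finset.prod_one_add, Finset.powerset_univ]
    rw [h2]
    split_ifs with h
    · subst h
      simp only [rv_sq]
      norm_num
    · have : ∃ i, z i ≠ x i := by
        by_contra hc
        push Not at hc
        exact h (funext hc)
      obtain ⟨i, hi⟩ := this
      apply Finset.prod_eq_zero (Finset.mem_univ i)
      rcases Int.units_eq_one_or (z i) with h1 | h1 <;> rcases Int.units_eq_one_or (x i) with h2 | h2
      · exact absurd (h1.trans h2.symm) hi
      · simp [h1, h2]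
      · simp [h1, h2]
      · exact absurd (h1.trans h2.symm) hi
  have h3 : ∑ S : Finset ι, fh f S * psi 0 S x
      = (∑ z : ι → ℤˣ, f z * ∑ S : Finset ι, psi 0 S z * psi 0 S x) / 2 ^ Fintype.card ι := by
    simp only [fh, E_zero_eq]
    simp only [Finset.mul_sum, Finset.sum_div, Finset.sum_mul]
    rw [Finset.sum_comm]
    refine Finset.sum_congr rfl fun z _ => Finset.sum_congr rfl fun S _ => ?_
    ring
  rw [h3]
  simp only [key]
  simp only [mul_ite, mul_zero, Finset.sum_ite_eq', Finset.mem_univ, if_true]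
  field_simp

end general

end P047
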