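import Mathlib
import Vale.Agent.P047.Basic

/-!
# P047: amplification by balanced composition
-/

open Finset

namespace P047

section span

variable {ι : Type} [Fintype ι] [DecidableEq ι]

/-- real functions of degree at most `d` -/
noncomputable def Sp (ι : Type) [Fintype ι] [DecidableEq ι] (d : ℕ) :
    Submodule ℝ ((ι → ℤˣ) → ℝ) :=
  Submodule.span ℝ {g | ∃ S : Finset ι, S.card ≤ d ∧ g = psi 0 S}

lemma psi_mem {d : ℕ} {S : Finset ι} (h : S.card ≤ d) : psi 0 S ∈ Sp ι d :=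
  Submodule.subset_span ⟨S, h, rfl⟩

lemma Sp_mono {a b : ℕ} (h : a ≤ b) : Sp ι a ≤ Sp ι b := by
  apply Submodule.span_mono
  rintro g ⟨S, hS, rfl⟩
  exact ⟨S, hS.trans h, rfl⟩

lemma fh_psi (S T : Finset ι) : fh (psi 0 S) T = if S = T then 1 else 0 := by
  unfold fh
  rw [E_psi_mul_psi]
  simp

lemma fh_add (g h : (ι → ℤˣ) → ℝ) (S : Finset ι) : fh (g + h) S = fh g S + fh h S := by
  unfold fh
  rw [← E_add]
  congr 1
  funext x
  simp only [Pi.add_apply]
  ring

lemma fh_smul (c : ℝ) (g : (ι → ℤˣ) → ℝ) (S : Finset ι) : fh (c • g) S = c * fh g S := by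
  unfold fh
  rw [← E_mul_left]
  congr 1
  funext x
  simp only [Pi.smul_apply, smul_eq_mul]
  ring

lemma fh_eq_zero_of_mem {d : ℕ} {g : (ι → ℤˣ) → ℝ} (hg : g ∈ Sp ι d) (S : Finset ι)
    (hS : d < S.card) : fh g S = 0 := by
  induction hg using Submodule.span_induction with
  | mem x h =>
    obtain ⟨T, hT, rfl⟩ := h
    rw [fh_psi, if_neg]
    rintro rfl
    omega
  | zero => unfold fh E; simp
  | add x y _ _ hx hy => rw [fh_add, hx, hy]; ring
  | smul a x _ hx => rw [fh_smul, hx]; ring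

lemma mem_of_fh {d : ℕ} {g : (ι → ℤˣ) → ℝ} (hg : ∀ S : Finset ι, d < S.card → fh g S = 0) :
    g ∈ Sp ι d := by
  have h : g = ∑ S : Finset ι, fh g S • psi 0 S := by
    funext x
    rw [inversion g x]
    simp [Finset.sum_apply]
  rw [h]
  apply Submodule.sum_mem
  intro S _
  by_cases hS : S.card ≤ d
  · exact Submodule.smul_mem _ _ (psi_mem hS)
  · rw [hg S (not_le.mp hS), zero_smul]; exact Submodule.zero_mem _

lemma psi_mul (S T : Finset ι) : (psi 0 S * psi 0 T : (ι → ℤˣ) → ℝ) = psi 0 (symmDiff S T) := by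
  funext x
  simp only [Pi.mul_apply]
  rw [psi_eq_prod, psi_eq_prod, psi_eq_prod, ← Finset.prod_mul_distrib]
  refine Finset.prod_congr rfl fun i _ => ?_
  simp only [sub_zero, Finset.mem_symmDiff]
  by_cases h1 : i ∈ S <;> by_cases h2 : i ∈ T <;> simp [h1, h2, rv_sq]

lemma mul_mem_Sp {a b : ℕ} {g h : (ι → ℤˣ) → ℝ} (hg : g ∈ Sp ι a) (hh : h ∈ Sp ι b) :
    g * h ∈ Sp ι (a + b) := by
  induction hg using Submodule.span_induction with
  | mem x hx =>
    obtain ⟨S, hS, rfl⟩ := hx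
    induction hh using Submodule.span_induction with
    | mem y hy =>
      obtain ⟨T, hT, rfl⟩ := hy
      rw [psi_mul]
      apply psi_mem
      have h1 : symmDiff S T ⊆ S ∪ T := by
        intro i hi
        rw [Finset.mem_symmDiff] at hi
        rw [Finset.mem_union]
        tauto
      calc (symmDiff S T).card ≤ (S ∪ T).card := Finset.card_le_card h1
        _ ≤ S.card + T.card := Finset.card_union_le _ _
        _ ≤ a + b := Nat.add_le_add hS hT
    | zero => rw [mul_zero]; exact Submodule.zero_mem _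
    | add y z _ _ hy hz => rw [mul_add]; exact Submodule.add_mem _ hy hz
    | smul c y _ hy => rw [mul_smul_comm]; exact Submodule.smul_mem _ _ hy
  | zero => rw [zero_mul]; exact Submodule.zero_mem _
  | add y z _ _ hy hz => rw [add_mul]; exact Submodule.add_mem _ hy hz
  | smul c y _ hy => rw [smul_mul_assoc]; exact Submodule.smul_mem _ _ hy

lemma one_mem_Sp (d : ℕ) : (1 : (ι → ℤˣ) → ℝ) ∈ Sp ι d := by
  have : (1 : (ι → ℤˣ) → ℝ) = psi 0 ∅ := by funext x; simp [psi]
  rw [this]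
  exact psi_mem (by simp)

lemma prod_mem_Sp {α : Type} [DecidableEq α] {a : ℕ} (s : Finset α) (g : α → (ι → ℤˣ) → ℝ)
    (hg : ∀ i, g i ∈ Sp ι a) : ∏ i ∈ s, g i ∈ Sp ι (s.card * a) := by
  induction s using Finset.induction_on with
  | empty => simpa using one_mem_Sp (ι := ι) 0
  | insert i s hi ih =>
    rw [Finset.prod_insert hi, Finset.card_insert_of_notMem hi]
    have := mul_mem_Sp (hg i) ih
    rwa [show a + s.card * a = (s.card + 1) * a by ring] at this

lemma pull_mem_Sp {κ : Type} [Fintype κ] [DecidableEq κ] {d : ℕ} {g : (ι → ℤˣ) → ℝ}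
    (hg : g ∈ Sp ι d) (e : ι ↪ κ) : (fun x : κ → ℤˣ => g (fun i => x (e i))) ∈ Sp κ d := by
  induction hg using Submodule.span_induction with
  | mem x hx =>
    obtain ⟨S, hS, rfl⟩ := hx
    have : (fun x : κ → ℤˣ => psi 0 S (fun i => x (e i))) = psi 0 (S.map e) := by
      funext x
      simp [psi, Finset.prod_map]
    rw [this]
    exact psi_mem (by rwa [Finset.card_map])
  | zero => exact Submodule.zero_mem _
  | add y z _ _ hy hz => exact Submodule.add_mem _ hy hz
  | smul c y _ hy => exact Submodule.smul_mem _ c hy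

end span

section boolean

variable {ι κ : Type} [Fintype ι] [DecidableEq ι] [Fintype κ] [DecidableEq κ]

/-- the real function of a Boolean function -/
noncomputable def R (f : (ι → ℤˣ) → ℤˣ) : (ι → ℤˣ) → ℝ := fun x => rv (f x)

lemma R_cases (f : (ι → ℤˣ) → ℤˣ) (x : ι → ℤˣ) : R f x = 1 ∨ R f x = -1 := rv_cases _

/-- level-one sum -/
noncomputable def lin (f : (ι → ℤˣ) → ℤˣ) : ℝ := ∑ i, fh (R f) {i}

/-- mean -/
noncomputable def mean (f : (ι → ℤˣ) → ℤˣ) : ℝ := fh (R f) ∅

/-- degree at most `d` -/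
def DL (f : (ι → ℤˣ) → ℤˣ) (d : ℕ) : Prop := R f ∈ Sp ι d

/-- block composition -/
def blk (f : (ι → ℤˣ) → ℤˣ) (g : (κ → ℤˣ) → ℤˣ) : (ι × κ → ℤˣ) → ℤˣ :=
  fun z => f (fun i => g (fun k => z (i, k)))

/-- the dual function -/
def dual (f : (ι → ℤˣ) → ℤˣ) : (ι → ℤˣ) → ℤˣ := fun x => -f (-x)

lemma E_blocks (u : ι → (κ → ℤˣ) → ℝ) :
    E 0 (fun z : ι × κ → ℤˣ => ∏ i, u i (fun k => z (i, k))) = ∏ i, E 0 (u i) := by
  simp only [E_zero_eq]
  rw [Finset.prod_div_distrib, Finset.prod_const, Finset.card_univ, Fintype.card_prod, ← pow_mul,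
    mul_comm (Fintype.card κ)]
  congr 1
  have h := (Finset.prod_univ_sum (fun _ : ι => (Finset.univ : Finset (κ → ℤˣ))) u)
  rw [Fintype.piFinset_univ] at h
  rw [h]
  exact Fintype.sum_equiv (Equiv.curry ι κ ℤˣ) _ _ (fun z => rfl)

lemma R_blk_expand (f : (ι → ℤˣ) → ℤˣ) (g : (κ → ℤˣ) → ℤˣ) (z : ι × κ → ℤˣ) :
    R (blk f g) z = ∑ S : Finset ι, fh (R f) S * ∏ i ∈ S, R g (fun k => z (i, k)) := by
  have h := inversion (R f) (fun i => g (fun k => z (i, k)))
  unfold R blk at *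
  rw [h]
  refine Finset.sum_congr rfl fun S _ => ?_
  simp [psi]

lemma DL_blk {f : (ι → ℤˣ) → ℤˣ} {g : (κ → ℤˣ) → ℤˣ} {d D : ℕ} (hf : DL f d) (hg : DL g D) :
    DL (blk f g) (d * D) := by
  unfold DL
  have : R (blk f g) = ∑ S : Finset ι, fh (R f) S •
      ∏ i ∈ S, (fun z : ι × κ → ℤˣ => R g (fun k => z (i, k))) := by
    funext z
    rw [R_blk_expand]
    simp [Finset.sum_apply, Finset.prod_apply]
  rw [this]
  apply Submodule.sum_mem
  intro S _
  by_cases hS : S.card ≤ d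
  · apply Submodule.smul_mem
    apply Sp_mono (Nat.mul_le_mul_right D hS)
    apply prod_mem_Sp
    intro i
    exact pull_mem_Sp hg ⟨fun k => (i, k), fun a b h => by simpa using h⟩
  · rw [fh_eq_zero_of_mem hf S (not_le.mp hS), zero_smul]
    exact Submodule.zero_mem _

lemma mean_blk {f : (ι → ℤˣ) → ℤˣ} {g : (κ → ℤˣ) → ℤˣ} (hg : mean g = 0) :
    mean (blk f g) = mean f := by
  unfold mean fh
  have h1 : (fun z : ι × κ → ℤˣ => R (blk f g) z * psi 0 ∅ z)
      = fun z => ∑ S : Finset ι, fh (R f) S *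
        ∏ i, (if i ∈ S then R g (fun k => z (i, k)) else 1) := by
    funext z
    rw [R_blk_expand]
    simp [psi, Finset.prod_ite_mem]
  rw [h1, E_sum]
  simp only [E_mul_left]
  have hg0 : E 0 (R g) = 0 := by
    have : E 0 (R g) = mean g := by unfold mean fh; congr 1; funext x; simp [psi]
    rw [this, hg]
  rw [Finset.sum_eq_single (∅ : Finset ι)]
  · simp only [Finset.notMem_empty, if_false, Finset.prod_const_one]
    rw [E_const]
    simp [fh]
  · intro S _ hS
    obtain ⟨j, hj⟩ := Finset.nonempty_iff_ne_empty.mpr hS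
    have h2 := E_blocks (fun i (w : κ → ℤˣ) => if i ∈ S then R g w else 1)
    rw [h2, Finset.prod_eq_zero (Finset.mem_univ j), mul_zero]
    simp only [hj, if_true]
    exact hg0
  · intro h; exact absurd (Finset.mem_univ _) h

lemma fh_blk {f : (ι → ℤˣ) → ℤˣ} {g : (κ → ℤˣ) → ℤˣ} (hg : mean g = 0) (i : ι) (k : κ) :
    fh (R (blk f g)) {(i, k)} = fh (R f) {i} * fh (R g) {k} := by
  have hg0 : E 0 (R g) = 0 := by
    have : E 0 (R g) = mean g := by unfold mean fh; congr 1; funext x; simp [psi]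
    rw [this, hg]
  have h0 : fh (R (blk f g)) {(i, k)} = E 0 (fun z : ι × κ → ℤˣ => ∑ S : Finset ι, fh (R f) S *
        ∏ j, ((if j ∈ S then R g (fun k => z (j, k)) else 1) *
          (if j = i then rv (z (j, k)) else 1))) := by
    unfold fh
    congr 1
    funext z
    rw [R_blk_expand, Finset.sum_mul]
    refine Finset.sum_congr rfl fun S _ => ?_
    rw [Finset.prod_mul_distrib, Finset.prod_ite_mem, Finset.univ_inter, Finset.prod_ite_eq']
    simp [psi, fh]
    ring
  rw [h0, E_sum]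
  simp only [E_mul_left]
  have hE : ∀ S : Finset ι, E 0 (fun z : ι × κ → ℤˣ =>
        ∏ j, ((if j ∈ S then R g (fun k => z (j, k)) else 1) *
          (if j = i then rv (z (j, k)) else 1)))
      = ∏ j, E 0 (fun w : κ → ℤˣ => (if j ∈ S then R g w else 1) *
          (if j = i then rv (w k) else 1)) := by
    intro S
    exact E_blocks (fun j (w : κ → ℤˣ) => (if j ∈ S then R g w else 1) *
          (if j = i then rv (w k) else 1))
  simp only [hE]
  rw [Finset.sum_eq_single ({i} : Finset ι)]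
  · congr 1
    rw [Finset.prod_eq_single i]
    · simp only [Finset.mem_singleton, if_true]
      unfold fh
      congr 1
      funext w
      simp [psi]
    · intro j _ hj
      simp only [Finset.mem_singleton, hj, if_false, mul_one]
      exact E_const 0 1
    · intro h; exact absurd (Finset.mem_univ _) h
  · intro S _ hS
    apply mul_eq_zero_of_right
    by_cases hi : i ∈ S
    · have : ∃ j ∈ S, j ≠ i := by
        by_contra hc
        push Not at hc
        apply hS
        ext j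
        rw [Finset.mem_singleton]
        exact ⟨fun h => hc j h, fun h => h ▸ hi⟩
      obtain ⟨j, hj, hji⟩ := this
      apply Finset.prod_eq_zero (Finset.mem_univ j)
      simp only [hj, hji, if_true, if_false, mul_one]
      exact hg0
    · apply Finset.prod_eq_zero (Finset.mem_univ i)
      simp only [hi, if_true, if_false, one_mul]
      have := E_psi_mul_psi (ι := κ) 0 {k} ∅
      simp [psi] at this
      exact this
  · intro h; exact absurd (Finset.mem_univ _) h

lemma lin_blk {f : (ι → ℤˣ) → ℤˣ} {g : (κ → ℤˣ) → ℤˣ} (hg : mean g = 0) :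
    lin (blk f g) = lin f * lin g := by
  unfold lin
  rw [Fintype.sum_prod_type, Finset.sum_mul_sum]
  refine Finset.sum_congr rfl fun i _ => Finset.sum_congr rfl fun k _ => fh_blk hg i k

lemma fh_dual (f : (ι → ℤˣ) → ℤˣ) (S : Finset ι) :
    fh (R (dual f)) S = -((-1) ^ S.card * fh (R f) S) := by
  unfold fh
  simp only [E_zero_eq]
  have h : ∑ x : ι → ℤˣ, R (dual f) x * psi 0 S x
      = ∑ x : ι → ℤˣ, -((-1) ^ S.card * (R f x * psi 0 S x)) := by
    refine Fintype.sum_equiv (Equiv.neg (ι → ℤˣ)) _ _ (fun x => ?_)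
    have h1 : R (dual f) x = -R f (-x) := by simp [R, dual]
    have h2 : psi 0 S x = (-1) ^ S.card * psi 0 S (-x) := by
      unfold psi
      rw [← Finset.prod_const, ← Finset.prod_mul_distrib]
      exact Finset.prod_congr rfl fun i _ => by simp
    rw [h1, h2]
    simp only [Equiv.neg_apply]
    ring
  rw [h, Finset.sum_neg_distrib, ← Finset.mul_sum]
  ring

lemma lin_dual (f : (ι → ℤˣ) → ℤˣ) : lin (dual f) = lin f := by
  unfold lin
  refine Finset.sum_congr rfl fun i _ => ?_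
  rw [fh_dual]; simp

lemma mean_dual (f : (ι → ℤˣ) → ℤˣ) : mean (dual f) = -mean f := by
  unfold mean
  rw [fh_dual]; simp

lemma DL_dual {f : (ι → ℤˣ) → ℤˣ} {d : ℕ} (h : DL f d) : DL (dual f) d := by
  apply mem_of_fh
  intro S hS
  rw [fh_dual, fh_eq_zero_of_mem h S hS]; simp

/-- selection by one new variable -/
def sel (A B : (ι → ℤˣ) → ℤˣ) : (Option ι → ℤˣ) → ℤˣ :=
  fun x => if x none = 1 then A (fun i => x (some i)) else B (fun i => x (some i))

/-- extend by one coordinate -/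
def ext1 (a : ℤˣ) (w : ι → ℤˣ) : Option ι → ℤˣ := fun o => Option.elim o a w

lemma E_option (F : (Option ι → ℤˣ) → ℝ) :
    E 0 F = (E 0 (fun w => F (ext1 1 w)) + E 0 (fun w => F (ext1 (-1) w))) / 2 := by
  simp only [E_zero_eq]
  have h : ∑ x : Option ι → ℤˣ, F x
      = ∑ w : ι → ℤˣ, F (ext1 1 w) + ∑ w : ι → ℤˣ, F (ext1 (-1) w) := by
    have h1 : ∑ x : Option ι → ℤˣ, F x = ∑ p : ℤˣ × (ι → ℤˣ), F (ext1 p.1 p.2) := by
      refine Fintype.sum_equiv (Equiv.piOptionEquivProd (β := fun _ => ℤˣ)) _ _ (fun x => ?_)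
      congr 1
      funext o
      cases o <;> rfl
    rw [h1, Fintype.sum_prod_type, sum_units]
  rw [h, Fintype.card_option, pow_succ]
  field_simp

lemma R_sel_one (A B : (ι → ℤˣ) → ℤˣ) (w : ι → ℤˣ) : R (sel A B) (ext1 1 w) = R A w := by
  simp [R, sel, ext1]

lemma R_sel_neg (A B : (ι → ℤˣ) → ℤˣ) (w : ι → ℤˣ) : R (sel A B) (ext1 (-1) w) = R B w := by
  simp [R, sel, ext1]

lemma mean_sel (A B : (ι → ℤˣ) → ℤˣ) : mean (sel A B) = (mean A + mean B) / 2 := by
  unfold mean fh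
  rw [E_option]
  simp only [R_sel_one, R_sel_neg, psi, Finset.prod_empty]

lemma fh_sel_none (A B : (ι → ℤˣ) → ℤˣ) : fh (R (sel A B)) {none} = (mean A - mean B) / 2 := by
  unfold mean fh
  rw [E_option]
  simp only [R_sel_one, R_sel_neg, psi, Finset.prod_empty, Finset.prod_singleton]
  have h1 : ∀ w : ι → ℤˣ, rv (ext1 1 w none) = 1 := fun w => by simp [ext1]
  have h2 : ∀ w : ι → ℤˣ, rv (ext1 (-1) w none) = -1 := fun w => by simp [ext1]
  simp only [h1, h2, sub_zero, mul_one]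
  have h3 : (fun x : ι → ℤˣ => R B x * -1) = fun x => (-1) * R B x := by funext x; ring
  rw [h3, E_mul_left]
  ring

lemma fh_sel_some (A B : (ι → ℤˣ) → ℤˣ) (i : ι) :
    fh (R (sel A B)) {some i} = (fh (R A) {i} + fh (R B) {i}) / 2 := by
  unfold fh
  rw [E_option]
  simp only [R_sel_one, R_sel_neg, psi, Finset.prod_singleton]
  rfl

lemma lin_sel (A B : (ι → ℤˣ) → ℤˣ) :
    lin (sel A B) = (mean A - mean B) / 2 + (lin A + lin B) / 2 := by
  unfold lin
  rw [Fintype.sum_option, fh_sel_none]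
  simp only [fh_sel_some]
  rw [← Finset.sum_div, Finset.sum_add_distrib]

lemma DL_sel {A B : (ι → ℤˣ) → ℤˣ} {D : ℕ} (hA : DL A D) (hB : DL B D) :
    DL (sel A B) (D + 1) := by
  unfold DL
  have h : R (sel A B) = (1 / 2 : ℝ) • ((1 + psi 0 {none}) * (fun x => R A (fun i => x (some i))))
      + (1 / 2 : ℝ) • ((1 + (-1 : ℝ) • psi 0 {none}) * (fun x => R B (fun i => x (some i)))) := by
    funext x
    simp only [Pi.add_apply, Pi.smul_apply, Pi.mul_apply, Pi.one_apply, smul_eq_mul, psi,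
      Finset.prod_singleton, sub_zero]
    rcases Int.units_eq_one_or (x none) with hx | hx
    · simp [R, sel, hx]; ring
    · simp [R, sel, hx]; ring
  rw [h]
  have hp : (psi 0 {none} : (Option ι → ℤˣ) → ℝ) ∈ Sp (Option ι) 1 := psi_mem (by simp)
  have hAe := pull_mem_Sp hA (Function.Embedding.some : ι ↪ Option ι)
  have hBe := pull_mem_Sp hB (Function.Embedding.some : ι ↪ Option ι)
  rw [add_comm D 1]
  apply Submodule.add_mem
  · apply Submodule.smul_mem
    exact mul_mem_Sp (Submodule.add_mem _ (one_mem_Sp 1) hp) hAe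
  · apply Submodule.smul_mem
    exact mul_mem_Sp (Submodule.add_mem _ (one_mem_Sp 1) (Submodule.smul_mem _ _ hp)) hBe

/-- one amplification step -/
lemma step {f : (ι → ℤˣ) → ℤˣ} {g : (κ → ℤˣ) → ℤˣ} {d D : ℕ} (hf : DL f d) (hg : DL g D)
    (hm : 0 ≤ mean f) (hg0 : mean g = 0) :
    ∃ F : (Option (ι × κ) → ℤˣ) → ℤˣ, mean F = 0 ∧ DL F (d * D + 1) ∧ lin f * lin g ≤ lin F := by
  refine ⟨sel (blk f g) (blk (dual f) g), ?_, ?_, ?_⟩
  · rw [mean_sel, mean_blk hg0, mean_blk hg0, mean_dual]; ring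
  · exact DL_sel (DL_blk hf hg) (DL_blk (DL_dual hf) hg)
  · rw [lin_sel, mean_blk hg0, mean_blk hg0, mean_dual, lin_blk hg0, lin_blk hg0, lin_dual]
    linarith

/-- transport along an equivalence -/
def tr (f : (ι → ℤˣ) → ℤˣ) (e : ι ≃ κ) : (κ → ℤˣ) → ℤˣ := fun x => f (fun i => x (e i))

lemma fh_tr (f : (ι → ℤˣ) → ℤˣ) (e : ι ≃ κ) (S : Finset ι) :
    fh (R (tr f e)) (S.map e.toEmbedding) = fh (R f) S := by
  unfold fh
  simp only [E_zero_eq]
  rw [Fintype.card_congr e]
  congr 1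
  refine Fintype.sum_equiv (Equiv.arrowCongr e.symm (Equiv.refl ℤˣ)) _ _ (fun x => ?_)
  simp [R, tr, psi, Finset.prod_map, Equiv.arrowCongr]
  exact Or.inl rfl

lemma lin_tr (f : (ι → ℤˣ) → ℤˣ) (e : ι ≃ κ) : lin (tr f e) = lin f := by
  unfold lin
  refine (Fintype.sum_equiv e _ _ (fun i => ?_)).symm
  rw [← fh_tr f e {i}]
  simp

lemma mean_tr (f : (ι → ℤˣ) → ℤˣ) (e : ι ≃ κ) : mean (tr f e) = mean f := by
  unfold mean
  rw [← fh_tr f e ∅]
  simp

lemma DL_tr {f : (ι → ℤˣ) → ℤˣ} {d : ℕ} (hf : DL f d) (e : ι ≃ κ) : DL (tr f e) d :=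
  pull_mem_Sp hf e.toEmbedding

lemma amplify {n : ℕ} {f : (Fin n → ℤˣ) → ℤˣ} {d : ℕ} (hd : 2 ≤ d) (hf : DL f d)
    (hl : 0 ≤ lin f) (k : ℕ) :
    ∃ (m : ℕ) (g : (Fin m → ℤˣ) → ℤˣ), 1 ≤ m ∧ mean g = 0 ∧ DL g (2 * d ^ k - 1) ∧
      (lin f) ^ k ≤ lin g := by
  -- normalise the mean
  obtain ⟨f', hf', hm', hl'⟩ : ∃ f' : (Fin n → ℤˣ) → ℤˣ, DL f' d ∧ 0 ≤ mean f' ∧
      lin f' = lin f := by
    rcases le_total 0 (mean f) with h | h
    · exact ⟨f, hf, h, rfl⟩
    · exact ⟨dual f, DL_dual hf, by rw [mean_dual]; linarith, lin_dual f⟩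
  induction k with
  | zero =>
    refine ⟨1, fun x => x 0, le_rfl, ?_, ?_, ?_⟩
    · have := E_psi_mul_psi (ι := Fin 1) 0 {0} ∅
      simp [psi] at this
      simp [mean, fh, R, psi, this]
    · have : R (fun x : Fin 1 → ℤˣ => x 0) = psi 0 {0} := by
        funext x; simp [R, psi]
      unfold DL
      rw [this]
      exact psi_mem (by simp)
    · have : R (fun x : Fin 1 → ℤˣ => x 0) = psi 0 {0} := by
        funext x; simp [R, psi]
      simp only [lin, this, pow_zero]
      simp [fh_psi]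
  | succ k ih =>
    obtain ⟨m, g, hm, hg0, hgD, hgl⟩ := ih
    obtain ⟨F, hF0, hFD, hFl⟩ := step hf' hgD hm' hg0
    let e : Option (Fin n × Fin m) ≃ Fin (Fintype.card (Option (Fin n × Fin m))) :=
      Fintype.equivFin _
    refine ⟨_, tr F e, ?_, ?_, ?_, ?_⟩
    · rw [Fintype.card_option]; omega
    · rw [mean_tr, hF0]
    · apply Sp_mono _ (DL_tr hFD e)
      have h1 : 1 ≤ d ^ k := Nat.one_le_pow _ _ (by omega)
      have h2 : d * (2 * d ^ k - 1) = 2 * d ^ (k + 1) - d := by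
        rw [Nat.mul_sub, pow_succ]
        congr 1
        · ring
        · simp
      have h3 : d ≤ d ^ (k + 1) := by
        calc d = d ^ 1 := (pow_one d).symm
          _ ≤ d ^ (k + 1) := Nat.pow_le_pow_right (by omega) (by omega)
      omega
    · rw [lin_tr]
      calc (lin f) ^ (k + 1) = lin f * (lin f) ^ k := by ring
        _ ≤ lin f * lin g := mul_le_mul_of_nonneg_left hgl hl
        _ = lin f' * lin g := by rw [hl']
        _ ≤ lin F := hFl

end boolean

end P047
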