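import Mathlib
import Vale.Agent.P047.Basic

/-!
# P047: biased means of Boolean functions and the influence inequality
-/

open Finset

namespace P047

variable {ι : Type} [Fintype ι] [DecidableEq ι]

/-- coefficients of `f` in the basis `psi y` -/
noncomputable def cf (y : ℝ) (f : (ι → ℤˣ) → ℝ) (T : Finset ι) : ℝ :=
  ∑ S : Finset ι, if T ⊆ S then fh f S * y ^ (S.card - T.card) else 0

lemma psi_zero_expand (y : ℝ) (S : Finset ι) (x : ι → ℤˣ) :
    psi 0 S x = ∑ T : Finset ι, if T ⊆ S then psi y T x * y ^ (S.card - T.card) else 0 := by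
  have h1 : psi 0 S x = ∏ i ∈ S, ((rv (x i) - y) + y) := by
    unfold psi
    exact Finset.prod_congr rfl fun i _ => by ring
  rw [h1, Finset.prod_add]
  rw [← Finset.sum_filter]
  have h2 : (Finset.univ.filter (fun T : Finset ι => T ⊆ S)) = S.powerset := by
    ext T; simp
  rw [h2]
  refine Finset.sum_congr rfl fun T hT => ?_
  rw [Finset.prod_const, Finset.card_sdiff_of_subset (Finset.mem_powerset.mp hT)]
  rfl

lemma expand (y : ℝ) (f : (ι → ℤˣ) → ℝ) (x : ι → ℤˣ) :
    f x = ∑ T : Finset ι, cf y f T * psi y T x := by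
  rw [inversion f x]
  simp only [cf, Finset.sum_mul]
  rw [Finset.sum_comm]
  refine Finset.sum_congr rfl fun S _ => ?_
  rw [psi_zero_expand y S x, Finset.mul_sum]
  refine Finset.sum_congr rfl fun T _ => ?_
  split_ifs <;> ring

lemma cf_eq_zero {d : ℕ} {f : (ι → ℤˣ) → ℝ} (hf : ∀ S : Finset ι, d < S.card → fh f S = 0)
    (y : ℝ) {T : Finset ι} (hT : d < T.card) : cf y f T = 0 := by
  unfold cf
  apply Finset.sum_eq_zero
  intro S _
  split_ifs with h
  · rw [hf S (lt_of_lt_of_le hT (Finset.card_le_card h))]; ring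
  · rfl

lemma E_series_mul_psi (y : ℝ) (a : Finset ι → ℝ) (U : Finset ι) :
    E y (fun x => (∑ T : Finset ι, a T * psi y T x) * psi y U x) = a U * (1 - y ^ 2) ^ U.card := by
  have h1 : (fun x : ι → ℤˣ => (∑ T : Finset ι, a T * psi y T x) * psi y U x)
      = fun x => ∑ T : Finset ι, a T * (psi y T x * psi y U x) := by
    funext x
    rw [Finset.sum_mul]
    exact Finset.sum_congr rfl fun T _ => by ring
  rw [h1, E_sum]
  simp only [E_mul_left, E_psi_mul_psi]
  simp

lemma parseval (y : ℝ) (a : Finset ι → ℝ) :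
    E y (fun x => (∑ T : Finset ι, a T * psi y T x) * (∑ T : Finset ι, a T * psi y T x))
      = ∑ T : Finset ι, a T ^ 2 * (1 - y ^ 2) ^ T.card := by
  have h1 : (fun x : ι → ℤˣ =>
      (∑ T : Finset ι, a T * psi y T x) * (∑ T : Finset ι, a T * psi y T x))
      = fun x => ∑ U : Finset ι, a U * ((∑ T : Finset ι, a T * psi y T x) * psi y U x) := by
    funext x
    rw [Finset.mul_sum]
    exact Finset.sum_congr rfl fun T _ => by ring
  rw [h1, E_sum]
  simp only [E_mul_left, E_series_mul_psi]
  exact Finset.sum_congr rfl fun T _ => by ring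

/-- discrete derivative -/
noncomputable def D (i : ι) (f : (ι → ℤˣ) → ℝ) (x : ι → ℤˣ) : ℝ :=
  (f (Function.update x i 1) - f (Function.update x i (-1))) / 2

lemma psi_update (y : ℝ) (T : Finset ι) (x : ι → ℤˣ) (i : ι) (a : ℤˣ) :
    psi y T (Function.update x i a)
      = if i ∈ T then (rv a - y) * psi y (T.erase i) x else psi y T x := by
  unfold psi
  split_ifs with h
  · rw [← Finset.mul_prod_erase T _ h]
    simp only [Function.update_self]
    congr 1
    refine Finset.prod_congr rfl fun j hj => ?_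
    rw [Function.update_of_ne (Finset.ne_of_mem_erase hj)]
  · refine Finset.prod_congr rfl fun j hj => ?_
    rw [Function.update_of_ne (fun hh : j = i => h (hh ▸ hj))]

lemma L_expand (y : ℝ) (f : (ι → ℤˣ) → ℝ) (x : ι → ℤˣ) (i : ι) :
    (rv (x i) - y) * D i f x
      = ∑ T : Finset ι, (if i ∈ T then cf y f T else 0) * psi y T x := by
  unfold D
  rw [expand y f (Function.update x i 1), expand y f (Function.update x i (-1))]
  rw [← Finset.sum_sub_distrib, Finset.sum_div, Finset.mul_sum]
  refine Finset.sum_congr rfl fun T _ => ?_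
  rw [psi_update, psi_update]
  split_ifs with h
  · have h2 : psi y T x = (rv (x i) - y) * psi y (T.erase i) x := by
      unfold psi
      rw [← Finset.mul_prod_erase T _ h]
    rw [h2]
    simp only [rv_one, rv_neg_one]
    ring
  · ring

lemma D_cases {f : (ι → ℤˣ) → ℝ} (hf : ∀ x, f x = 1 ∨ f x = -1) (i : ι) (x : ι → ℤˣ) :
    |D i f x| ≤ D i f x * D i f x := by
  unfold D
  rcases hf (Function.update x i 1) with h1 | h1 <;>
    rcases hf (Function.update x i (-1)) with h2 | h2 <;> rw [h1, h2] <;> norm_num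

lemma single_le {y : ℝ} (h0 : -1 ≤ y) (h1 : y ≤ 1) {f : (ι → ℤˣ) → ℝ}
    (hf : ∀ x, f x = 1 ∨ f x = -1) (i : ι) :
    |cf y f {i}| * (1 - y ^ 2)
      ≤ ∑ T : Finset ι, (if i ∈ T then cf y f T else 0) ^ 2 * (1 - y ^ 2) ^ T.card := by
  have hE : E y (fun x => (rv (x i) - y) * (rv (x i) - y) * D i f x)
      = cf y f {i} * (1 - y ^ 2) := by
    have : (fun x : ι → ℤˣ => (rv (x i) - y) * (rv (x i) - y) * D i f x)
        = fun x => (∑ T : Finset ι, (if i ∈ T then cf y f T else 0) * psi y T x) * psi y {i} x := by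
      funext x
      rw [← L_expand]
      simp only [psi, Finset.prod_singleton]
      ring
    rw [this, E_series_mul_psi]
    simp
  have hsq : E y (fun x => (rv (x i) - y) * (rv (x i) - y) * (D i f x * D i f x))
      = ∑ T : Finset ι, (if i ∈ T then cf y f T else 0) ^ 2 * (1 - y ^ 2) ^ T.card := by
    rw [← parseval]
    congr 1
    funext x
    rw [← L_expand]
    ring
  have hy : 0 ≤ 1 - y ^ 2 := by nlinarith
  rw [← hsq]
  have hle : |cf y f {i}| * (1 - y ^ 2) = |cf y f {i} * (1 - y ^ 2)| := by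
    rw [abs_mul, abs_of_nonneg hy]
  rw [hle, ← hE, abs_le]
  constructor
  · have h3 : -E y (fun x => (rv (x i) - y) * (rv (x i) - y) * D i f x)
        ≤ E y (fun x => (rv (x i) - y) * (rv (x i) - y) * (D i f x * D i f x)) := by
      have : -E y (fun x => (rv (x i) - y) * (rv (x i) - y) * D i f x)
          = E y (fun x => (-1) * ((rv (x i) - y) * (rv (x i) - y) * D i f x)) := by
        rw [E_mul_left]; ring
      rw [this]
      apply E_mono h0 h1
      intro x
      have hd := D_cases hf i x
      have hs : 0 ≤ (rv (x i) - y) * (rv (x i) - y) := mul_self_nonneg _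
      have := neg_abs_le (D i f x)
      nlinarith
    linarith
  · apply E_mono h0 h1
    intro x
    have hd := D_cases hf i x
    have hs : 0 ≤ (rv (x i) - y) * (rv (x i) - y) := mul_self_nonneg _
    exact mul_le_mul_of_nonneg_left (le_trans (le_abs_self _) hd) hs

/-- Main influence inequality. -/
lemma influence {d : ℕ} {y : ℝ} (h0 : -1 ≤ y) (h1 : y ≤ 1) {f : (ι → ℤˣ) → ℝ}
    (hf : ∀ x, f x = 1 ∨ f x = -1) (hd : ∀ S : Finset ι, d < S.card → fh f S = 0) :
    (∑ i : ι, |cf y f {i}|) * (1 - y ^ 2) ≤ d * (1 - (cf y f ∅) ^ 2) := by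
  have hy : 0 ≤ 1 - y ^ 2 := by nlinarith
  have hone : ∑ T : Finset ι, cf y f T ^ 2 * (1 - y ^ 2) ^ T.card = 1 := by
    rw [← parseval]
    have : (fun x : ι → ℤˣ => (∑ T : Finset ι, cf y f T * psi y T x)
        * (∑ T : Finset ι, cf y f T * psi y T x)) = fun _ => 1 := by
      funext x
      rw [← expand y f x]
      rcases hf x with h | h <;> rw [h] <;> norm_num
    rw [this, E_const]
  rw [Finset.sum_mul]
  calc ∑ i : ι, |cf y f {i}| * (1 - y ^ 2)
      ≤ ∑ i : ι, ∑ T : Finset ι, (if i ∈ T then cf y f T else 0) ^ 2 * (1 - y ^ 2) ^ T.card :=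
        Finset.sum_le_sum fun i _ => single_le h0 h1 hf i
    _ = ∑ T : Finset ι, (T.card : ℝ) * (cf y f T ^ 2 * (1 - y ^ 2) ^ T.card) := by
        rw [Finset.sum_comm]
        refine Finset.sum_congr rfl fun T _ => ?_
        have : ∀ i : ι, (if i ∈ T then cf y f T else 0) ^ 2 * (1 - y ^ 2) ^ T.card
            = if i ∈ T then cf y f T ^ 2 * (1 - y ^ 2) ^ T.card else 0 := by
          intro i; split_ifs <;> ring
        simp only [this]
        rw [Finset.sum_ite_mem, Finset.univ_inter, Finset.sum_const, nsmul_eq_mul]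
    _ ≤ ∑ T : Finset ι, (if T = ∅ then 0 else (d : ℝ) * (cf y f T ^ 2 * (1 - y ^ 2) ^ T.card)) := by
        refine Finset.sum_le_sum fun T _ => ?_
        split_ifs with h
        · subst h; simp
        · by_cases hT : T.card ≤ d
          · apply mul_le_mul_of_nonneg_right (by exact_mod_cast hT)
            positivity
          · rw [cf_eq_zero hd y (not_le.mp hT)]; simp
    _ = ∑ T : Finset ι, ((d : ℝ) * (cf y f T ^ 2 * (1 - y ^ 2) ^ T.card)
          - (if T = ∅ then (d : ℝ) * (cf y f ∅ ^ 2) else 0)) := by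
        refine Finset.sum_congr rfl fun T _ => ?_
        split_ifs with h
        · subst h; simp
        · ring
    _ = d * (1 - (cf y f ∅) ^ 2) := by
        rw [Finset.sum_sub_distrib, ← Finset.mul_sum, hone]
        simp
        ring

open Polynomial in
/-- Everything about `f` that the upper bound needs. -/
lemma exists_poly {d : ℕ} {f : (ι → ℤˣ) → ℝ}
    (hf : ∀ x, f x = 1 ∨ f x = -1) (hd : ∀ S : Finset ι, d < S.card → fh f S = 0) :
    ∃ p : ℝ[X], p.natDegree ≤ d ∧ (∀ y : ℝ, -1 ≤ y → y ≤ 1 → |p.eval y| ≤ 1) ∧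
      (∀ y : ℝ, -1 ≤ y → y ≤ 1 → |p.derivative.eval y| * (1 - y ^ 2) ≤ d * (1 - (p.eval y) ^ 2)) ∧
      p.derivative.eval 0 = ∑ i : ι, fh f {i} := by
  refine ⟨∑ S : Finset ι, C (fh f S) * X ^ S.card, ?_, ?_, ?_, ?_⟩
  · apply natDegree_sum_le_of_forall_le
    intro S _
    by_cases hS : S.card ≤ d
    · exact (natDegree_C_mul_X_pow_le _ _).trans hS
    · rw [hd S (not_le.mp hS)]; simp
  all_goals
    have hev : ∀ y : ℝ, (∑ S : Finset ι, C (fh f S) * X ^ S.card : ℝ[X]).eval y = cf y f ∅ := by
      intro y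
      rw [eval_finsetSum]
      simp [cf]
    have hder : ∀ y : ℝ, (∑ S : Finset ι, C (fh f S) * X ^ S.card : ℝ[X]).derivative.eval y
        = ∑ i : ι, cf y f {i} := by
      intro y
      rw [derivative_sum, eval_finsetSum]
      simp only [cf, Finset.singleton_subset_iff, Finset.card_singleton]
      rw [Finset.sum_comm]
      refine Finset.sum_congr rfl fun S _ => ?_
      rw [Finset.sum_ite_mem, Finset.univ_inter, Finset.sum_const, nsmul_eq_mul]
      simp [derivative_X_pow]
      ring
  · intro y h0 h1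
    rw [hev]
    have h2 := E_series_mul_psi y (cf y f) (∅ : Finset ι)
    simp only [Finset.card_empty, pow_zero, mul_one] at h2
    rw [← h2, abs_le]
    have h3 : (fun x : ι → ℤˣ => (∑ T : Finset ι, cf y f T * psi y T x) * psi y ∅ x) = f := by
      funext x
      rw [← expand y f x]
      simp [psi]
    rw [h3]
    constructor
    · have := E_mono h0 h1 (f := fun _ => (-1 : ℝ)) (g := f) (by
        intro x; rcases hf x with h | h <;> rw [h]; norm_num)
      rwa [E_const] at this
    · have := E_mono h0 h1 (f := f) (g := fun _ => (1 : ℝ)) (by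
        intro x; rcases hf x with h | h <;> rw [h]; norm_num)
      rwa [E_const] at this
  · intro y h0 h1
    rw [hev, hder]
    have hy : 0 ≤ 1 - y ^ 2 := by nlinarith
    exact le_trans (mul_le_mul_of_nonneg_right (Finset.abs_sum_le_sum_abs _ _) hy)
      (influence h0 h1 hf hd)
  · rw [hder]
    refine Finset.sum_congr rfl fun i _ => ?_
    unfold cf
    rw [Finset.sum_eq_single ({i} : Finset ι)]
    · simp
    · intro S _ hS
      split_ifs with h
      · have hlt : ({i} : Finset ι).card < S.card :=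
          Finset.card_lt_card (Finset.ssubset_iff_subset_ne.mpr ⟨h, fun hh => hS hh.symm⟩)
        rw [zero_pow (by omega)]; ring
      · rfl
    · intro h; exact absurd (Finset.mem_univ _) h

end P047
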