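import Mathlib

/-!
# P047: M. Riesz's comparison lemma and the bound for univariate polynomials
-/

open Finset Polynomial

namespace P047

/-- A trigonometric polynomial of degree `m` has at most `2 m` zeros. -/
lemma card_zeros_le (q : ℝ[X]) (m : ℕ) (hq : q.natDegree ≤ m) (K c : ℝ) (Z : Finset ℝ)
    (hZ : ∀ t ∈ Z, 0 < t ∧ t < 2 * Real.pi ∧ K * Real.cos (m * t) = q.eval (Real.sin (t + c)))
    (t0 : ℝ) (ht0 : K * Real.cos (m * t0) ≠ q.eval (Real.sin (t0 + c))) :
    Z.card ≤ 2 * m := by
  classical
  set a : ℂ := Complex.exp (-(c : ℂ) * Complex.I) * Complex.I / 2 with ha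
  set b : ℂ := Complex.exp ((c : ℂ) * Complex.I) * Complex.I / 2 with hb
  set Q : ℂ[X] := C ((K : ℂ) / 2) * (X ^ (2 * m) + 1)
    - ∑ k ∈ Finset.range (m + 1), C ((q.coeff k : ℝ) : ℂ) * X ^ (m - k) * (C a - C b * X ^ 2) ^ k
    with hQ
  -- evaluation on the unit circle
  have hev : ∀ t : ℝ, Q.eval (Complex.exp ((t : ℂ) * Complex.I))
      = Complex.exp ((t : ℂ) * Complex.I) ^ m
        * ((K * Real.cos (m * t) - q.eval (Real.sin (t + c)) : ℝ) : ℂ) := by
    intro t
    set z : ℂ := Complex.exp ((t : ℂ) * Complex.I) with hz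
    have hz0 : z ≠ 0 := Complex.exp_ne_zero _
    have hsin : z * Complex.sin ((t : ℂ) + c) = a - b * z ^ 2 := by
      rw [Complex.sin, ha, hb, hz]
      have e1 : Complex.exp (-((t : ℂ) + c) * Complex.I)
          = Complex.exp (-(c : ℂ) * Complex.I) * (Complex.exp ((t : ℂ) * Complex.I))⁻¹ := by
        rw [← Complex.exp_neg, ← Complex.exp_add]; congr 1; ring
      have e2 : Complex.exp (((t : ℂ) + c) * Complex.I)
          = Complex.exp ((c : ℂ) * Complex.I) * Complex.exp ((t : ℂ) * Complex.I) := by
        rw [← Complex.exp_add]; congr 1; ring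
      rw [e1, e2]
      have : Complex.exp ((t : ℂ) * Complex.I) ≠ 0 := Complex.exp_ne_zero _
      field_simp
    have hcos : z ^ m * Complex.cos ((m : ℂ) * t) = (z ^ (2 * m) + 1) / 2 := by
      have e3 : z ^ m = Complex.exp ((m : ℂ) * t * Complex.I) := by
        rw [hz, ← Complex.exp_nat_mul]; congr 1; ring
      rw [pow_mul', e3, Complex.cos]
      have e4 : Complex.exp (-((m : ℂ) * t) * Complex.I)
          = (Complex.exp ((m : ℂ) * t * Complex.I))⁻¹ := by
        rw [← Complex.exp_neg]; congr 1; ring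
      rw [e4]
      have : Complex.exp ((m : ℂ) * t * Complex.I) ≠ 0 := Complex.exp_ne_zero _
      field_simp
    have hqe : ((q.eval (Real.sin (t + c)) : ℝ) : ℂ)
        = ∑ k ∈ Finset.range (m + 1), ((q.coeff k : ℝ) : ℂ) * (Complex.sin ((t : ℂ) + c)) ^ k := by
      rw [Polynomial.eval_eq_sum_range' (Nat.lt_succ_of_le hq)]
      push_cast
      rfl
    rw [hQ]
    simp only [eval_sub, eval_mul, eval_C, eval_add, eval_pow, eval_X, eval_one, eval_finsetSum]
    push_cast
    rw [mul_sub, hqe, Finset.mul_sum]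
    congr 1
    · rw [show z ^ m * ((K : ℂ) * Complex.cos ((m : ℂ) * t))
          = K * (z ^ m * Complex.cos ((m : ℂ) * t)) by ring, hcos]
      ring
    · refine Finset.sum_congr rfl fun k hk => ?_
      have hkm : k ≤ m := Nat.lt_succ_iff.mp (Finset.mem_range.mp hk)
      rw [← hsin, mul_pow]
      have : z ^ m = z ^ (m - k) * z ^ k := by rw [← pow_add, Nat.sub_add_cancel hkm]
      rw [this]
      ring
  have hQ0 : Q ≠ 0 := by
    intro h
    have h1 := hev t0
    rw [h, eval_zero] at h1
    have h2 := mul_eq_zero.mp h1.symm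
    rcases h2 with h2 | h2
    · exact absurd h2 (pow_ne_zero m (Complex.exp_ne_zero _))
    · apply ht0
      have : (K * Real.cos (m * t0) - q.eval (Real.sin (t0 + c)) : ℝ) = 0 := by
        exact_mod_cast h2
      linarith
  have hdeg : Q.natDegree ≤ 2 * m := by
    rw [hQ]
    apply (natDegree_sub_le _ _).trans
    apply max_le
    · apply (natDegree_C_mul_le _ _).trans
      apply (natDegree_add_le _ _).trans
      simp
    · apply natDegree_sum_le_of_forall_le
      intro k hk
      have hkm : k ≤ m := Nat.lt_succ_iff.mp (Finset.mem_range.mp hk)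
      have h1 : ((C a - C b * X ^ 2 : ℂ[X]) ^ k).natDegree ≤ 2 * k := by
        apply natDegree_pow_le.trans
        have : (C a - C b * X ^ 2 : ℂ[X]).natDegree ≤ 2 := by
          apply (natDegree_sub_le _ _).trans
          apply max_le
          · simp
          · exact natDegree_C_mul_X_pow_le _ _
        calc k * (C a - C b * X ^ 2 : ℂ[X]).natDegree ≤ k * 2 := Nat.mul_le_mul_left _ this
          _ = 2 * k := by ring
      have h2 : (C ((q.coeff k : ℝ) : ℂ) * X ^ (m - k) : ℂ[X]).natDegree ≤ m - k :=
        natDegree_C_mul_X_pow_le _ _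
      calc _ ≤ _ + _ := natDegree_mul_le
        _ ≤ (m - k) + 2 * k := Nat.add_le_add h2 h1
        _ ≤ 2 * m := by omega
  -- the zeros give distinct roots
  have hinj : Set.InjOn (fun t : ℝ => Complex.exp ((t : ℂ) * Complex.I)) (Z : Set ℝ) := by
    intro s hs t ht hst
    have hs' := hZ s (Finset.mem_coe.mp hs)
    have ht' := hZ t (Finset.mem_coe.mp ht)
    simp only at hst
    rw [Complex.exp_eq_exp_iff_exists_int] at hst
    obtain ⟨n, hn⟩ := hst
    have h1 : (s : ℂ) = t + n * (2 * Real.pi) := by
      have hI : Complex.I ≠ 0 := Complex.I_ne_zero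
      apply mul_right_cancel₀ hI
      rw [hn]; ring
    have h2 : s = t + n * (2 * Real.pi) := by exact_mod_cast h1
    have hpi := Real.pi_pos
    have hn0 : n = 0 := by
      by_contra hne
      rcases lt_or_gt_of_ne hne with h | h
      · have : (n : ℝ) ≤ -1 := by exact_mod_cast Int.le_sub_one_of_lt h
        nlinarith
      · have : (1 : ℝ) ≤ n := by exact_mod_cast h
        nlinarith
    rw [h2, hn0]; simp
  have himg : (Z.image (fun t : ℝ => Complex.exp ((t : ℂ) * Complex.I))) ⊆ Q.roots.toFinset := by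
    intro w hw
    obtain ⟨t, ht, rfl⟩ := Finset.mem_image.mp hw
    rw [Multiset.mem_toFinset, mem_roots hQ0, IsRoot.def, hev]
    have := (hZ t ht).2.2
    rw [this]; simp
  calc Z.card = (Z.image (fun t : ℝ => Complex.exp ((t : ℂ) * Complex.I))).card :=
        (Finset.card_image_of_injOn hinj).symm
    _ ≤ Q.roots.toFinset.card := Finset.card_le_card himg
    _ ≤ Multiset.card Q.roots := Multiset.toFinset_card_le _
    _ ≤ Q.natDegree := card_roots' _
    _ ≤ 2 * m := hdeg

lemma riesz_aux (q : ℝ[X]) (m : ℕ) (hm : 1 ≤ m) (hq : q.natDegree ≤ m) (K : ℝ) (hK : 0 < K)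
    (hb : ∀ t : ℝ, |q.eval (Real.sin t)| ≤ K) (t0 : ℝ) (h0 : q.eval (Real.sin t0) = K)
    (α v : ℝ) (hα : 0 < α) (hα2 : m * α < Real.pi / 2) (hv : 0 < v)
    (hva : m * (v + α) < Real.pi) :
    K / Real.cos (m * α) * Real.cos (m * (v + α)) < q.eval (Real.sin (t0 + v)) := by
  classical
  have hmpos : (0 : ℝ) < m := by exact_mod_cast hm
  have hpi := Real.pi_pos
  have hca : 0 < Real.cos (m * α) := Real.cos_pos_of_mem_Ioo ⟨by nlinarith [mul_pos hmpos hα], hα2⟩
  have hca1 : Real.cos (m * α) < 1 := by
    have : Real.cos (m * α) < Real.cos 0 :=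
      Real.cos_lt_cos_of_nonneg_of_le_pi_div_two le_rfl hα2.le (mul_pos hmpos hα)
    simpa using this
  set K' : ℝ := K / Real.cos (m * α) with hK'
  have hKK' : K < K' := by
    rw [hK', lt_div_iff₀ hca]; nlinarith
  by_contra hcon
  push Not at hcon
  set c : ℝ := t0 - α with hc
  set D : ℝ → ℝ := fun t => K' * Real.cos (m * t) - q.eval (Real.sin (t + c)) with hD
  have hDcont : Continuous D := by
    rw [hD]
    have h1 : Continuous fun t : ℝ => q.eval (Real.sin (t + c)) :=
      q.continuous.comp (Real.continuous_sin.comp (continuous_id.add continuous_const))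
    exact (continuous_const.mul (Real.continuous_cos.comp (continuous_const.mul continuous_id))).sub
      h1
  have hnode : ∀ j : ℕ, Real.cos (m * (j * (Real.pi / m))) = (-1) ^ j := by
    intro j
    rw [show (m : ℝ) * (j * (Real.pi / m)) = j * Real.pi by field_simp]
    exact Real.cos_nat_mul_pi j
  have hqb := fun t => abs_le.mp (hb t)
  have hDe : ∀ j : ℕ, Even j → 0 < D (j * (Real.pi / m)) := by
    intro j hj
    simp only [hD]
    rw [hnode, hj.neg_one_pow]
    have := (hqb (j * (Real.pi / m) + c)).2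
    linarith
  have hDo : ∀ j : ℕ, Odd j → D (j * (Real.pi / m)) < 0 := by
    intro j hj
    simp only [hD]
    rw [hnode, hj.neg_one_pow]
    have := (hqb (j * (Real.pi / m) + c)).1
    linarith
  have hzero : ∀ j : ℕ, ∃ t : ℝ, (j * (Real.pi / m) < t ∧ t < (j + 1) * (Real.pi / m)) ∧ D t = 0 := by
    intro j
    have hlt : (j : ℝ) * (Real.pi / m) < ((j + 1 : ℕ) : ℝ) * (Real.pi / m) := by
      push_cast
      have : 0 < Real.pi / m := div_pos hpi hmpos
      nlinarith
    rcases Nat.even_or_odd j with hj | hj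
    · have h1 := hDe j hj
      have h2 := hDo (j + 1) hj.add_one
      obtain ⟨t, ht, ht0⟩ := intermediate_value_Ioo' hlt.le hDcont.continuousOn ⟨h2, h1⟩
      refine ⟨t, ⟨ht.1, ?_⟩, ht0⟩
      have := ht.2
      push_cast at this
      exact this
    · have h1 := hDo j hj
      have h2 := hDe (j + 1) hj.add_one
      obtain ⟨t, ht, ht0⟩ := intermediate_value_Ioo hlt.le hDcont.continuousOn ⟨h1, h2⟩
      refine ⟨t, ⟨ht.1, ?_⟩, ht0⟩
      have := ht.2
      push_cast at this
      exact this
  choose t ht ht0' using hzero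
  -- the two zeros in the first interval
  have hDα : D α = 0 := by
    simp only [hD, hK', hc]
    rw [show α + (t0 - α) = t0 by ring, h0]
    field_simp
    ring
  have hDv : 0 ≤ D (v + α) := by
    simp only [hD, hc]
    rw [show v + α + (t0 - α) = t0 + v by ring]
    linarith
  have hvα_lt : v + α < 1 * (Real.pi / m) := by
    rw [one_mul, lt_div_iff₀ hmpos]; linarith
  have hD1 : D (1 * (Real.pi / m)) < 0 := by
    have := hDo 1 odd_one
    simpa using this
  obtain ⟨w, hw, hw0⟩ : ∃ w ∈ Set.Ico (v + α) (1 * (Real.pi / m)), D w = 0 := by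
    have := intermediate_value_Ico' hvα_lt.le hDcont.continuousOn
    exact this ⟨hD1, hDv⟩
  -- build the zero set
  have htinj : Set.InjOn t ((Finset.Icc 1 (2 * m - 1) : Finset ℕ) : Set ℕ) := by
    intro i _ j _ hij
    have hp : 0 < Real.pi / m := div_pos hpi hmpos
    by_contra hne
    rcases lt_or_gt_of_ne hne with h | h
    · have h1 : ((i : ℝ) + 1) ≤ j := by exact_mod_cast h
      have h2 := (ht i).2
      have h3 := (ht j).1
      have : ((i : ℝ) + 1) * (Real.pi / m) ≤ j * (Real.pi / m) :=
        mul_le_mul_of_nonneg_right h1 hp.le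
      rw [hij] at h2
      linarith
    · have h1 : ((j : ℝ) + 1) ≤ i := by exact_mod_cast h
      have h2 := (ht j).2
      have h3 := (ht i).1
      have : ((j : ℝ) + 1) * (Real.pi / m) ≤ i * (Real.pi / m) :=
        mul_le_mul_of_nonneg_right h1 hp.le
      rw [← hij] at h2
      linarith
  set Z0 : Finset ℝ := (Finset.Icc 1 (2 * m - 1)).image t with hZ0
  have hZ0mem : ∀ s ∈ Z0, 1 * (Real.pi / m) < s ∧ s < 2 * Real.pi ∧ D s = 0 := by
    intro s hs
    obtain ⟨j, hj, rfl⟩ := Finset.mem_image.mp hs
    rw [Finset.mem_Icc] at hj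
    have hp : 0 < Real.pi / m := div_pos hpi hmpos
    refine ⟨?_, ?_, ht0' j⟩
    · have h1 : (1 : ℝ) ≤ j := by exact_mod_cast hj.1
      have := (ht j).1
      nlinarith
    · have h1 : ((j : ℝ) + 1) ≤ 2 * m := by
        have : j + 1 ≤ 2 * m := by omega
        exact_mod_cast this
      have h2 := (ht j).2
      have h3 : ((j : ℝ) + 1) * (Real.pi / m) ≤ (2 * m) * (Real.pi / m) :=
        mul_le_mul_of_nonneg_right h1 hp.le
      have h4 : (2 * (m : ℝ)) * (Real.pi / m) = 2 * Real.pi := by field_simp
      linarith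
  have hwZ0 : w ∉ Z0 := fun h => by
    have := (hZ0mem w h).1
    have := hw.2
    linarith
  have hαw : α ≠ w := by
    have := hw.1
    intro h
    linarith
  have hαZ0 : α ∉ insert w Z0 := by
    rw [Finset.mem_insert]
    rintro (h | h)
    · exact hαw h
    · have := (hZ0mem α h).1
      linarith
  have hcard : (insert α (insert w Z0)).card = 2 * m + 1 := by
    rw [Finset.card_insert_of_notMem hαZ0, Finset.card_insert_of_notMem hwZ0, hZ0,
      Finset.card_image_of_injOn htinj, Nat.card_Icc]
    omega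
  have hle := card_zeros_le q m hq K' c (insert α (insert w Z0)) (by
    intro s hs
    rw [Finset.mem_insert, Finset.mem_insert] at hs
    have h1m : 1 * (Real.pi / m) < 2 * Real.pi := by
      rw [one_mul, div_lt_iff₀ hmpos]
      have : (1 : ℝ) ≤ m := by exact_mod_cast hm
      nlinarith
    have hDs : D s = 0 → K' * Real.cos (m * s) = q.eval (Real.sin (s + c)) := by
      intro h
      simp only [hD] at h
      linarith
    rcases hs with h | h | h
    · subst h
      exact ⟨hα, by linarith, hDs hDα⟩
    · subst h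
      exact ⟨by linarith [hw.1], by linarith [hw.2], hDs hw0⟩
    · have := hZ0mem s h
      have hp : 0 < Real.pi / m := div_pos hpi hmpos
      exact ⟨by linarith [this.1], this.2.1, hDs this.2.2⟩) 0 (by
    have := (hqb (0 + c)).2
    simp only [mul_zero, Real.cos_zero, mul_one]
    intro h
    rw [← h] at this
    linarith)
  omega

/-- M. Riesz: near a maximum point, a trigonometric polynomial of degree `m` stays above the
cosine. -/
lemma riesz (q : ℝ[X]) (m : ℕ) (hm : 1 ≤ m) (hq : q.natDegree ≤ m) (K : ℝ) (hK : 0 < K)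
    (hb : ∀ t : ℝ, |q.eval (Real.sin t)| ≤ K) (t0 : ℝ) (h0 : q.eval (Real.sin t0) = K)
    (v : ℝ) (hv : 0 ≤ v) (hva : m * v < Real.pi) :
    K * Real.cos (m * v) ≤ q.eval (Real.sin (t0 + v)) := by
  rcases hv.eq_or_lt with hv | hv
  · subst hv
    simp [h0]
  have hmpos : (0 : ℝ) < m := by exact_mod_cast hm
  have hpi := Real.pi_pos
  have htend : Filter.Tendsto (fun α : ℝ => K / Real.cos (m * α) * Real.cos (m * (v + α)))
      (nhdsWithin 0 (Set.Ioi 0)) (nhds (K * Real.cos (m * v))) := by
    have h1 : ContinuousAt (fun α : ℝ => K / Real.cos (m * α) * Real.cos (m * (v + α))) 0 := by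
      apply ContinuousAt.mul
      · apply ContinuousAt.div continuousAt_const
        · exact (Real.continuous_cos.comp (continuous_const.mul continuous_id)).continuousAt
        · simp
      · exact (Real.continuous_cos.comp
          (continuous_const.mul (continuous_const.add continuous_id))).continuousAt
    have h2 := h1.tendsto
    simp only [mul_zero, Real.cos_zero, div_one, add_zero] at h2
    exact h2.mono_left nhdsWithin_le_nhds
  refine le_of_tendsto htend ?_
  have hε : 0 < min (Real.pi / 2 / m) ((Real.pi - m * v) / m) := by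
    apply lt_min
    · positivity
    · apply div_pos _ hmpos; linarith
  filter_upwards [Ioo_mem_nhdsGT hε] with α hα
  refine (riesz_aux q m hm hq K hK hb t0 h0 α v hα.1 ?_ hv ?_).le
  · have := lt_of_lt_of_le hα.2 (min_le_left _ _)
    rw [lt_div_iff₀ hmpos] at this
    linarith
  · have := lt_of_lt_of_le hα.2 (min_le_right _ _)
    rw [lt_div_iff₀ hmpos] at this
    linarith

end P047
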