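import Mathlib
import Vale.Agent.P047.Riesz

/-!
# P047: the bound `|p'(0)| ≤ ((d+1)/(2d)) √((d-1)(3d+1))`
-/

open Finset Polynomial

namespace P047

lemma core {d : ℕ} (hd : 3 ≤ d) (p : ℝ[X]) (hp : p.natDegree ≤ d)
    (h2 : ∀ y : ℝ, -1 ≤ y → y ≤ 1 →
      |p.derivative.eval y| * (1 - y ^ 2) ≤ d * (1 - (p.eval y) ^ 2))
    (K : ℝ) (hK : 0 < K)
    (hb : ∀ t : ℝ, |(p.derivative * (1 - X ^ 2)).eval (Real.sin t)| ≤ K)
    (t0 : ℝ) (ht0 : -(Real.pi / 2) ≤ t0 ∧ t0 ≤ Real.pi / 2)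
    (h0 : (p.derivative * (1 - X ^ 2)).eval (Real.sin t0) = K)
    (hp0 : 0 ≤ p.eval (Real.sin t0)) :
    K ^ 2 ≤ ((d : ℝ) + 1) ^ 2 * (1 - ((d : ℝ) + 1) ^ 2 / (4 * (d : ℝ) ^ 2)) := by
  set q : ℝ[X] := p.derivative * (1 - X ^ 2) with hq
  have hd3 : (3 : ℝ) ≤ d := by exact_mod_cast hd
  have hdpos : (0 : ℝ) < d := by linarith
  have hqd : q.natDegree ≤ d + 1 := by
    rw [hq]
    apply natDegree_mul_le.trans
    have h1 : p.derivative.natDegree ≤ d - 1 :=
      (natDegree_derivative_le p).trans (Nat.sub_le_sub_right hp 1)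
    have h3 : (1 - X ^ 2 : ℝ[X]).natDegree ≤ 2 := by
      apply (natDegree_sub_le _ _).trans
      simp
    omega
  have hm1 : ((d + 1 : ℕ) : ℝ) = (d : ℝ) + 1 := by push_cast; ring
  have hmpos : (0 : ℝ) < (d : ℝ) + 1 := by linarith
  have hpi := Real.pi_pos
  by_cases hKs : K < ((d : ℝ) + 1) ^ 2 / (2 * d)
  · -- small K
    have h3 : K ^ 2 ≤ (((d : ℝ) + 1) ^ 2 / (2 * d)) ^ 2 := by
      apply pow_le_pow_left₀ hK.le hKs.le
    have h4 : (((d : ℝ) + 1) ^ 2 / (2 * d)) ^ 2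
        = ((d : ℝ) + 1) ^ 2 * (((d : ℝ) + 1) ^ 2 / (4 * (d : ℝ) ^ 2)) := by
      field_simp; ring
    rw [h4] at h3
    refine h3.trans (mul_le_mul_of_nonneg_left ?_ (by positivity))
    have h5 : ((d : ℝ) + 1) ^ 2 / (4 * (d : ℝ) ^ 2) ≤ 1 / 2 := by
      rw [div_le_iff₀ (by positivity)]
      nlinarith
    linarith
  push Not at hKs
  -- the choice of the angle
  set x : ℝ := ((d : ℝ) + 1) ^ 2 / (2 * d * K) with hx
  have hxpos : 0 < x := by positivity
  have hx1 : x ≤ 1 := by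
    rw [hx, div_le_one (by positivity)]
    rw [div_le_iff₀ (by positivity)] at hKs
    linarith
  set V : ℝ := Real.arccos x / ((d : ℝ) + 1) with hV
  have hVnn : 0 ≤ V := div_nonneg (Real.arccos_nonneg x) hmpos.le
  have hmV : ((d : ℝ) + 1) * V = Real.arccos x := by rw [hV]; field_simp
  have hacos_lt : Real.arccos x < Real.pi / 2 := Real.arccos_lt_pi_div_two.mpr hxpos
  have hcosV : Real.cos (((d : ℝ) + 1) * V) = x := by
    rw [hmV, Real.cos_arccos (by linarith) hx1]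
  -- comparison
  have hR : ∀ v : ℝ, 0 ≤ v → v ≤ V → K * Real.cos (((d : ℝ) + 1) * v)
      ≤ q.eval (Real.sin (t0 + v)) := by
    intro v hv0 hvV
    have := riesz q (d + 1) (by omega) hqd K hK hb t0 h0 v hv0 (by
      rw [hm1]
      have : ((d : ℝ) + 1) * v ≤ ((d : ℝ) + 1) * V := mul_le_mul_of_nonneg_left hvV hmpos.le
      rw [hmV] at this
      linarith)
    rwa [hm1] at this
  have hcpos : ∀ v : ℝ, 0 ≤ v → v ≤ V → 0 < Real.cos (((d : ℝ) + 1) * v) := by
    intro v hv0 hvV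
    apply Real.cos_pos_of_mem_Ioo
    constructor
    · have : 0 ≤ ((d : ℝ) + 1) * v := mul_nonneg hmpos.le hv0
      linarith
    · have : ((d : ℝ) + 1) * v ≤ ((d : ℝ) + 1) * V := mul_le_mul_of_nonneg_left hvV hmpos.le
      rw [hmV] at this
      linarith
  have hqpos : ∀ v : ℝ, 0 ≤ v → v ≤ V → 0 < q.eval (Real.sin (t0 + v)) := fun v h1 h3 =>
    lt_of_lt_of_le (mul_pos hK (hcpos v h1 h3)) (hR v h1 h3)
  have hlt : ∀ v : ℝ, 0 ≤ v → v ≤ V → t0 + v < Real.pi / 2 := by
    intro v hv0 hvV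
    by_contra hcon
    push Not at hcon
    have h3 := hqpos (Real.pi / 2 - t0) (by linarith [ht0.2]) (by linarith)
    rw [show t0 + (Real.pi / 2 - t0) = Real.pi / 2 by ring, Real.sin_pi_div_two] at h3
    simp [hq] at h3
  have hgt : -(Real.pi / 2) < t0 := by
    rcases ht0.1.eq_or_lt with h | h
    · rw [← h, Real.sin_neg, Real.sin_pi_div_two] at h0
      simp [hq] at h0
      exact absurd h0.symm hK.ne'
    · exact h
  have hcos : ∀ v : ℝ, 0 ≤ v → v ≤ V → 0 < Real.cos (t0 + v) := fun v h1 h3 =>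
    Real.cos_pos_of_mem_Ioo ⟨by linarith, hlt v h1 h3⟩
  -- monotonicity
  have hqe : ∀ t : ℝ, q.eval (Real.sin t) = p.derivative.eval (Real.sin t) * Real.cos t ^ 2 := by
    intro t
    rw [hq]
    simp only [eval_mul, eval_sub, eval_one, eval_pow, eval_X]
    rw [Real.cos_sq']
  set H : ℝ → ℝ := fun v => p.eval (Real.sin (t0 + v))
    - K / ((d : ℝ) + 1) * Real.sin (((d : ℝ) + 1) * v) with hH
  have hder : ∀ v : ℝ, HasDerivAt H (p.derivative.eval (Real.sin (t0 + v)) * Real.cos (t0 + v)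
      - K * Real.cos (((d : ℝ) + 1) * v)) v := by
    intro v
    have e1 : HasDerivAt (fun v : ℝ => t0 + v) 1 v := by
      simpa using (hasDerivAt_id v).const_add t0
    have e2 : HasDerivAt (fun v : ℝ => Real.sin (t0 + v)) (Real.cos (t0 + v) * 1) v := e1.sin
    have e3 := (p.hasDerivAt (Real.sin (t0 + v))).comp v e2
    have e4 : HasDerivAt (fun v : ℝ => ((d : ℝ) + 1) * v) ((d : ℝ) + 1) v := by
      simpa using (hasDerivAt_id v).const_mul ((d : ℝ) + 1)
    have e5 := (e4.sin).const_mul (K / ((d : ℝ) + 1))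
    have e6 := e3.sub e5
    have e7 : p.derivative.eval (Real.sin (t0 + v)) * Real.cos (t0 + v)
        - K * Real.cos (((d : ℝ) + 1) * v)
        = p.derivative.eval (Real.sin (t0 + v)) * (Real.cos (t0 + v) * 1)
        - K / ((d : ℝ) + 1) * (Real.cos (((d : ℝ) + 1) * v) * ((d : ℝ) + 1)) := by
      field_simp
    rw [e7]
    exact e6
  have hmono : MonotoneOn H (Set.Icc 0 V) := by
    apply monotoneOn_of_deriv_nonneg (convex_Icc 0 V)
    · exact fun v _ => (hder v).continuousAt.continuousWithinAt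
    · exact fun v _ => (hder v).differentiableAt.differentiableWithinAt
    · intro v hv
      rw [interior_Icc] at hv
      rw [(hder v).deriv]
      have h3 := hR v hv.1.le hv.2.le
      have h4 := hcos v hv.1.le hv.2.le
      have h5 := hqpos v hv.1.le hv.2.le
      have h6 := Real.cos_le_one (t0 + v)
      rw [hqe] at h3 h5
      have h7 : 0 < p.derivative.eval (Real.sin (t0 + v)) := by
        by_contra hc
        push Not at hc
        nlinarith [sq_nonneg (Real.cos (t0 + v))]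
      have h8 : Real.cos (t0 + v) ^ 2 ≤ Real.cos (t0 + v) := by nlinarith
      have h9 := mul_le_mul_of_nonneg_left h8 h7.le
      linarith
  have hHV := hmono (Set.left_mem_Icc.mpr hVnn) (Set.right_mem_Icc.mpr hVnn) hVnn
  simp only [hH, add_zero, mul_zero, Real.sin_zero, sub_zero] at hHV
  have hsnn : 0 ≤ Real.sin (((d : ℝ) + 1) * V) := by
    rw [hmV]
    exact Real.sin_nonneg_of_nonneg_of_le_pi (Real.arccos_nonneg x) (Real.arccos_le_pi x)
  have hpV : K / ((d : ℝ) + 1) * Real.sin (((d : ℝ) + 1) * V) ≤ p.eval (Real.sin (t0 + V)) := by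
    linarith
  have hpVnn : 0 ≤ K / ((d : ℝ) + 1) * Real.sin (((d : ℝ) + 1) * V) :=
    mul_nonneg (by positivity) hsnn
  have hcon := h2 (Real.sin (t0 + V)) (Real.neg_one_le_sin _) (Real.sin_le_one _)
  have hRV := hR V hVnn le_rfl
  rw [hcosV] at hRV
  have h10 : q.eval (Real.sin (t0 + V))
      ≤ |p.derivative.eval (Real.sin (t0 + V))| * (1 - Real.sin (t0 + V) ^ 2) := by
    rw [hq]
    simp only [eval_mul, eval_sub, eval_one, eval_pow, eval_X]
    apply mul_le_mul_of_nonneg_right (le_abs_self _)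
    have := Real.sin_sq_le_one (t0 + V)
    linarith
  have h11 : (K / ((d : ℝ) + 1) * Real.sin (((d : ℝ) + 1) * V)) ^ 2
      ≤ (p.eval (Real.sin (t0 + V))) ^ 2 := pow_le_pow_left₀ hpVnn hpV 2
  have h12 : Real.sin (((d : ℝ) + 1) * V) ^ 2 = 1 - x ^ 2 := by
    rw [Real.sin_sq, hcosV]
  rw [mul_pow, h12] at h11
  have h13 : K * x ≤ d * (1 - (K / ((d : ℝ) + 1)) ^ 2 * (1 - x ^ 2)) := by
    have : (d : ℝ) * (1 - (p.eval (Real.sin (t0 + V))) ^ 2)
        ≤ d * (1 - (K / ((d : ℝ) + 1)) ^ 2 * (1 - x ^ 2)) :=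
      mul_le_mul_of_nonneg_left (by linarith) hdpos.le
    linarith
  -- final algebra
  have h14 : K * x = ((d : ℝ) + 1) ^ 2 / (2 * d) := by
    rw [hx]; field_simp
  have h15 : (K / ((d : ℝ) + 1)) ^ 2 * (1 - x ^ 2)
      = (K / ((d : ℝ) + 1)) ^ 2 - ((d : ℝ) + 1) ^ 2 / (4 * (d : ℝ) ^ 2) := by
    rw [hx]; field_simp; ring
  rw [h14, h15] at h13
  have h16 : ((d : ℝ) + 1) ^ 2 / (2 * d) = d * (2 * (((d : ℝ) + 1) ^ 2 / (4 * (d : ℝ) ^ 2))) := by
    field_simp; ring
  rw [h16] at h13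
  have h17 := le_of_mul_le_mul_left h13 hdpos
  have h18 : (K / ((d : ℝ) + 1)) ^ 2 ≤ 1 - ((d : ℝ) + 1) ^ 2 / (4 * (d : ℝ) ^ 2) := by linarith
  rw [div_pow, div_le_iff₀ (by positivity)] at h18
  linarith

lemma poly_bound {d : ℕ} (hd : 3 ≤ d) (p : ℝ[X]) (hp : p.natDegree ≤ d)
    (h2 : ∀ y : ℝ, -1 ≤ y → y ≤ 1 →
      |p.derivative.eval y| * (1 - y ^ 2) ≤ d * (1 - (p.eval y) ^ 2)) :
    (p.derivative.eval 0) ^ 2
      ≤ ((d : ℝ) + 1) ^ 2 * (1 - ((d : ℝ) + 1) ^ 2 / (4 * (d : ℝ) ^ 2)) := by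
  set q : ℝ[X] := p.derivative * (1 - X ^ 2) with hq
  have hd3 : (3 : ℝ) ≤ d := by exact_mod_cast hd
  -- the maximum of |q| on [-1,1]
  obtain ⟨y0, hy0, hmax⟩ := isCompact_Icc.exists_isMaxOn (s := Set.Icc (-1 : ℝ) 1)
    ⟨0, by norm_num⟩ (f := fun y => |q.eval y|) (q.continuous.abs.continuousOn)
  have hmax' : ∀ y : ℝ, -1 ≤ y → y ≤ 1 → |q.eval y| ≤ |q.eval y0| := fun y h3 h4 =>
    hmax ⟨h3, h4⟩
  have hq0 : |p.derivative.eval 0| ≤ |q.eval y0| := by
    have := hmax' 0 (by norm_num) (by norm_num)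
    simpa [hq] using this
  have hgoal : (q.eval y0) ^ 2
      ≤ ((d : ℝ) + 1) ^ 2 * (1 - ((d : ℝ) + 1) ^ 2 / (4 * (d : ℝ) ^ 2)) := by
    rcases eq_or_ne (q.eval y0) 0 with hz | hz
    · rw [hz]
      have : ((d : ℝ) + 1) ^ 2 / (4 * (d : ℝ) ^ 2) ≤ 1 := by
        rw [div_le_one (by positivity)]
        nlinarith
      have h5 : 0 ≤ ((d : ℝ) + 1) ^ 2 * (1 - ((d : ℝ) + 1) ^ 2 / (4 * (d : ℝ) ^ 2)) :=
        mul_nonneg (by positivity) (by linarith)
      simpa using h5
    · -- normalise signs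
      obtain ⟨s, hs, hsK⟩ : ∃ s : ℝ, (s = 1 ∨ s = -1) ∧ 0 < s * q.eval y0 := by
        rcases lt_or_gt_of_ne hz with h | h
        · exact ⟨-1, Or.inr rfl, by linarith⟩
        · exact ⟨1, Or.inl rfl, by linarith⟩
      have hss : s * s = 1 := by rcases hs with h | h <;> rw [h] <;> norm_num
      obtain ⟨r, hr, hrp⟩ : ∃ r : ℝ, (r = 1 ∨ r = -1) ∧ 0 ≤ s * r * p.eval y0 := by
        rcases le_total 0 (s * p.eval y0) with h | h
        · exact ⟨1, Or.inl rfl, by linarith⟩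
        · exact ⟨-1, Or.inr rfl, by linarith⟩
      have hrr : r * r = 1 := by rcases hr with h | h <;> rw [h] <;> norm_num
      -- the transformed polynomial p̃(y) = s r p(r y)
      set pt : ℝ[X] := C (s * r) * p.comp (C r * X) with hpt
      have hpt_deg : pt.natDegree ≤ d := by
        rw [hpt]
        apply (natDegree_C_mul_le _ _).trans
        apply natDegree_comp_le.trans
        have : (C r * X : ℝ[X]).natDegree ≤ 1 := by
          simpa using natDegree_C_mul_X_pow_le r 1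
        calc p.natDegree * (C r * X : ℝ[X]).natDegree ≤ d * 1 := Nat.mul_le_mul hp this
          _ = d := by ring
      have hpt_ev : ∀ y : ℝ, pt.eval y = s * r * p.eval (r * y) := by
        intro y; rw [hpt]; simp [eval_comp]
      have hpt_der : ∀ y : ℝ, pt.derivative.eval y = s * p.derivative.eval (r * y) := by
        intro y
        rw [hpt, derivative_C_mul, derivative_comp]
        simp only [derivative_mul, derivative_C, zero_mul, derivative_X, mul_one, zero_add,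
          eval_mul, eval_C, eval_comp, eval_X]
        calc s * r * (r * eval (r * y) (derivative p))
            = s * (r * r) * eval (r * y) (derivative p) := by ring
          _ = _ := by rw [hrr]; ring
      have habs_s : |s| = 1 := by rcases hs with h | h <;> rw [h] <;> norm_num
      have hry : ∀ y : ℝ, -1 ≤ y → y ≤ 1 → -1 ≤ r * y ∧ r * y ≤ 1 := by
        intro y h3 h4
        rcases hr with h | h <;> rw [h] <;> constructor <;> linarith
      have hrsq : ∀ y : ℝ, (r * y) ^ 2 = y ^ 2 := by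
        intro y; rw [mul_pow, sq r, hrr, one_mul]
      have hqt : ∀ y : ℝ, (pt.derivative * (1 - X ^ 2)).eval y = s * q.eval (r * y) := by
        intro y
        simp only [eval_mul, eval_sub, eval_one, eval_pow, eval_X, hpt_der, hq, hrsq]
        ring
      have hr0 : r * (r * y0) = y0 := by rw [← mul_assoc, hrr, one_mul]
      have hy0' := hry y0 hy0.1 hy0.2
      have hsin : Real.sin (Real.arcsin (r * y0)) = r * y0 :=
        Real.sin_arcsin hy0'.1 hy0'.2
      have hcore := core hd pt hpt_deg (by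
        intro y h3 h4
        have h5 := hry y h3 h4
        have h6 := h2 (r * y) h5.1 h5.2
        rw [hrsq] at h6
        rw [hpt_der, hpt_ev, abs_mul, habs_s, one_mul, mul_pow, mul_pow, sq s, hss, sq r, hrr]
        simpa using h6) (s * q.eval y0) hsK (by
        intro t
        rw [hqt, abs_mul, habs_s, one_mul]
        have h5 := hry (Real.sin t) (Real.neg_one_le_sin t) (Real.sin_le_one t)
        have h6 := hmax' (r * Real.sin t) h5.1 h5.2
        rwa [← abs_of_pos hsK, abs_mul, habs_s, one_mul])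
        (Real.arcsin (r * y0))
        ⟨Real.neg_pi_div_two_le_arcsin _, Real.arcsin_le_pi_div_two _⟩ (by
        rw [hqt, hsin, hr0]) (by
        rw [hpt_ev, hsin, hr0]; exact hrp)
      rwa [mul_pow, sq s, hss, one_mul] at hcore
  calc (p.derivative.eval 0) ^ 2 = |p.derivative.eval 0| ^ 2 := (sq_abs _).symm
    _ ≤ |q.eval y0| ^ 2 := pow_le_pow_left₀ (abs_nonneg _) hq0 2
    _ = (q.eval y0) ^ 2 := sq_abs _
    _ ≤ _ := hgoal

end P047
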