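import Mathlib
import Vale.Agent.P047.Amp

/-!
# P047: the majority function
-/

open Finset

namespace P047

lemma sum_cons {n : ℕ} (F : (Fin (n + 1) → ℤˣ) → ℝ) :
    ∑ x : Fin (n + 1) → ℤˣ, F x
      = ∑ w : Fin n → ℤˣ, (F (Fin.cons 1 w) + F (Fin.cons (-1) w)) := by
  have h1 : ∑ x : Fin (n + 1) → ℤˣ, F x = ∑ p : ℤˣ × (Fin n → ℤˣ), F (Fin.cons p.1 p.2) := by
    symm
    exact Fintype.sum_equiv (Fin.consEquiv (fun _ => ℤˣ)) _ _ (fun p => rfl)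
  rw [h1, Fintype.sum_prod_type, sum_units, ← Finset.sum_add_distrib]

/-- the sum of the coordinates -/
noncomputable def Sm {n : ℕ} (x : Fin n → ℤˣ) : ℝ := ∑ i, rv (x i)

lemma Sm_cons {n : ℕ} (a : ℤˣ) (w : Fin n → ℤˣ) :
    Sm (Fin.cons a w : Fin (n + 1) → ℤˣ) = rv a + Sm w := by
  unfold Sm
  rw [Fin.sum_univ_succ]
  simp

lemma card_cube (n : ℕ) : (∑ _x : Fin n → ℤˣ, (1 : ℝ)) = 2 ^ n := by
  simp

lemma moment_two (n : ℕ) : ∑ x : Fin n → ℤˣ, (Sm x) ^ 2 = n * 2 ^ n := by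
  induction n with
  | zero => simp [Sm]
  | succ n ih =>
    rw [sum_cons]
    have : ∀ w : Fin n → ℤˣ, ((Sm (Fin.cons 1 w : Fin (n + 1) → ℤˣ)) ^ 2
        + (Sm (Fin.cons (-1) w : Fin (n + 1) → ℤˣ)) ^ 2) = 2 * (Sm w) ^ 2 + 2 * 1 := by
      intro w
      rw [Sm_cons, Sm_cons, rv_one, rv_neg_one]
      ring
    simp only [this]
    rw [Finset.sum_add_distrib, ← Finset.mul_sum, ← Finset.mul_sum, ih, card_cube]
    push_cast
    ring

lemma moment_four (n : ℕ) :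
    ∑ x : Fin n → ℤˣ, (Sm x) ^ 4 = (3 * (n : ℝ) ^ 2 - 2 * n) * 2 ^ n := by
  induction n with
  | zero => simp [Sm]
  | succ n ih =>
    rw [sum_cons]
    have : ∀ w : Fin n → ℤˣ, ((Sm (Fin.cons 1 w : Fin (n + 1) → ℤˣ)) ^ 4
        + (Sm (Fin.cons (-1) w : Fin (n + 1) → ℤˣ)) ^ 4)
        = 2 * (Sm w) ^ 4 + (12 * (Sm w) ^ 2 + 2 * 1) := by
      intro w
      rw [Sm_cons, Sm_cons, rv_one, rv_neg_one]
      ring
    simp only [this]
    rw [Finset.sum_add_distrib, Finset.sum_add_distrib, ← Finset.mul_sum, ← Finset.mul_sum,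
      ← Finset.mul_sum, ih, moment_two, card_cube]
    push_cast
    ring

open Classical in
/-- majority, ties give `1` -/
noncomputable def maj (n : ℕ) : (Fin n → ℤˣ) → ℤˣ := fun x => if 0 ≤ Sm x then 1 else -1

lemma R_maj (n : ℕ) (x : Fin n → ℤˣ) : R (maj n) x * Sm x = |Sm x| := by
  unfold R maj
  split_ifs with h
  · rw [abs_of_nonneg h]; simp
  · rw [abs_of_neg (not_le.mp h)]; simp

lemma DL_univ {ι : Type} [Fintype ι] [DecidableEq ι] (f : (ι → ℤˣ) → ℤˣ) :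
    DL f (Fintype.card ι) := by
  apply mem_of_fh
  intro S hS
  exact absurd (Finset.card_le_univ S) (not_le.mpr hS)

lemma lin_eq {n : ℕ} (f : (Fin n → ℤˣ) → ℤˣ) : lin f = (∑ x, R f x * Sm x) / 2 ^ n := by
  unfold lin fh
  simp only [E_zero_eq, Fintype.card_fin]
  rw [← Finset.sum_div, Finset.sum_comm]
  congr 1
  refine Finset.sum_congr rfl fun x _ => ?_
  rw [Sm, Finset.mul_sum]
  simp [psi]

lemma lin_maj (n : ℕ) (hn : 1 ≤ n) : 5 / 9 * Real.sqrt n ≤ lin (maj n) := by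
  have hn' : (0 : ℝ) < n := by exact_mod_cast hn
  set r : ℝ := Real.sqrt n with hr
  have hrpos : 0 < r := Real.sqrt_pos.mpr hn'
  have hr2 : r ^ 2 = n := Real.sq_sqrt hn'.le
  rw [lin_eq]
  simp only [R_maj]
  have hpt : ∀ t : ℝ, t ^ 2 / r - 4 / 27 * t ^ 4 / r ^ 3 ≤ |t| := by
    intro t
    have h1 : t ^ 2 = |t| ^ 2 := (sq_abs t).symm
    have h2 : t ^ 4 = |t| ^ 4 := by
      have : t ^ 4 = (t ^ 2) ^ 2 := by ring
      rw [this, h1]; ring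
    rw [h1, h2]
    set u := |t| with hu
    have hu0 : 0 ≤ u := abs_nonneg t
    have h3 : u - (u ^ 2 / r - 4 / 27 * u ^ 4 / r ^ 3)
        = u * (4 / 27) * ((u - 3 / 2 * r) ^ 2 * (u + 3 * r)) / r ^ 3 := by
      field_simp
      ring
    have h4 : 0 ≤ u * (4 / 27) * ((u - 3 / 2 * r) ^ 2 * (u + 3 * r)) / r ^ 3 := by positivity
    linarith
  have hsum : ∑ x : Fin n → ℤˣ, ((Sm x) ^ 2 / r - 4 / 27 * (Sm x) ^ 4 / r ^ 3)
      ≤ ∑ x : Fin n → ℤˣ, |Sm x| := Finset.sum_le_sum fun x _ => hpt (Sm x)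
  have heq : ∑ x : Fin n → ℤˣ, ((Sm x) ^ 2 / r - 4 / 27 * (Sm x) ^ 4 / r ^ 3)
      = (n * 2 ^ n) / r - 4 / 27 * ((3 * (n : ℝ) ^ 2 - 2 * n) * 2 ^ n) / r ^ 3 := by
    rw [Finset.sum_sub_distrib, ← Finset.sum_div, ← Finset.sum_div, ← Finset.mul_sum,
      moment_two, moment_four]
  rw [heq] at hsum
  rw [le_div_iff₀ (by positivity)]
  refine le_trans ?_ hsum
  rw [← hr2]
  have h5 : (r ^ 2 * 2 ^ n) / r - 4 / 27 * ((3 * (r ^ 2) ^ 2 - 2 * r ^ 2) * 2 ^ n) / r ^ 3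
      = 5 / 9 * r * 2 ^ n + 8 / 27 / r * 2 ^ n := by
    field_simp
    ring
  rw [h5]
  have : 0 ≤ 8 / 27 / r * (2 : ℝ) ^ n := by positivity
  linarith

end P047
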