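import Mathlib
import Vale.Agent.P047.Maj

/-!
# P047: functions described by disjoint subcubes
-/

open Finset

namespace P047

variable {n : ℕ}

/-- indicator of the subcube `{x | x = a on T}` -/
noncomputable def ind (T : Finset (Fin n)) (a x : Fin n → ℤˣ) : ℝ :=
  ∏ i ∈ T, (1 + rv (a i) * rv (x i)) / 2

lemma ind_of_mem {T : Finset (Fin n)} {a x : Fin n → ℤˣ} (h : ∀ i ∈ T, x i = a i) :
    ind T a x = 1 := by
  unfold ind
  apply Finset.prod_eq_one
  intro i hi
  rw [h i hi, rv_sq]
  norm_num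

lemma ind_of_not_mem {T : Finset (Fin n)} {a x : Fin n → ℤˣ} (h : ¬ ∀ i ∈ T, x i = a i) :
    ind T a x = 0 := by
  unfold ind
  push Not at h
  obtain ⟨i, hi, hne⟩ := h
  apply Finset.prod_eq_zero hi
  rcases Int.units_eq_one_or (x i) with h1 | h1 <;> rcases Int.units_eq_one_or (a i) with h2 | h2
  · exact absurd (h1.trans h2.symm) hne
  · simp [h1, h2]
  · simp [h1, h2]
  · exact absurd (h1.trans h2.symm) hne

lemma ind_eq_prod (T : Finset (Fin n)) (a x : Fin n → ℤˣ) :
    ind T a x = ∏ i, (if i ∈ T then (1 + rv (a i) * rv (x i)) / 2 else 1) := by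
  unfold ind
  rw [Finset.prod_ite_mem, Finset.univ_inter]

lemma E_ind (y : ℝ) (T : Finset (Fin n)) (a : Fin n → ℤˣ) :
    E y (ind T a) = ∏ i ∈ T, (1 + rv (a i) * y) / 2 := by
  have h : (ind T a) = fun x => ∏ i, (if i ∈ T then (1 + rv (a i) * rv (x i)) / 2 else 1) := by
    funext x; exact ind_eq_prod T a x
  rw [h, E_prod y (fun i b => if i ∈ T then (1 + rv (a i) * rv b) / 2 else 1)]
  have h2 : ∀ i : Fin n, ((1 + y) / 2 * (if i ∈ T then (1 + rv (a i) * rv 1) / 2 else 1)
      + (1 - y) / 2 * (if i ∈ T then (1 + rv (a i) * rv (-1)) / 2 else 1))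
      = if i ∈ T then (1 + rv (a i) * y) / 2 else 1 := by
    intro i
    simp only [rv_one, rv_neg_one]
    split_ifs <;> ring
  simp only [h2]
  rw [Finset.prod_ite_mem, Finset.univ_inter]

lemma E_ind_psi (T U : Finset (Fin n)) (a : Fin n → ℤˣ) :
    E 0 (fun x => ind T a x * psi 0 U x)
      = if U ⊆ T then (∏ i ∈ U, rv (a i)) / 2 ^ T.card else 0 := by
  have h : (fun x : Fin n → ℤˣ => ind T a x * psi 0 U x) = fun x =>
      ∏ i, ((if i ∈ T then (1 + rv (a i) * rv (x i)) / 2 else 1) *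
        (if i ∈ U then rv (x i) - 0 else 1)) := by
    funext x
    rw [ind_eq_prod, psi_eq_prod, Finset.prod_mul_distrib]
  rw [h, E_prod 0 (fun i b => (if i ∈ T then (1 + rv (a i) * rv b) / 2 else 1) *
        (if i ∈ U then rv b - 0 else 1))]
  split_ifs with hU
  · have h2 : ∀ i : Fin n, ((1 + 0) / 2 * ((if i ∈ T then (1 + rv (a i) * rv 1) / 2 else 1) *
        (if i ∈ U then rv 1 - 0 else 1))
        + (1 - 0) / 2 * ((if i ∈ T then (1 + rv (a i) * rv (-1)) / 2 else 1) *
        (if i ∈ U then rv (-1) - 0 else 1)))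
        = (if i ∈ U then rv (a i) else 1) * (if i ∈ T then (1 : ℝ) / 2 else 1) := by
      intro i
      simp only [rv_one, rv_neg_one]
      by_cases h1 : i ∈ U
      · have h3 := hU h1
        simp only [h1, h3, if_true]; ring
      · by_cases h3 : i ∈ T
        · simp only [h1, h3, if_true, if_false]; ring
        · simp only [h1, h3, if_false]; ring
    simp only [h2]
    rw [Finset.prod_mul_distrib, Finset.prod_ite_mem, Finset.univ_inter, Finset.prod_ite_mem,
      Finset.univ_inter, Finset.prod_const]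
    rw [div_pow, one_pow]
    ring
  · obtain ⟨i, hi, hiT⟩ := Finset.not_subset.mp hU
    apply Finset.prod_eq_zero (Finset.mem_univ i)
    simp only [hi, hiT, if_true, if_false, rv_one, rv_neg_one]
    ring

/-- signed sum of the fixed coordinates -/
noncomputable def sg (T : Finset (Fin n)) (a : Fin n → ℤˣ) : ℝ := ∑ i ∈ T, rv (a i)

lemma E_ind_Sm (T : Finset (Fin n)) (a : Fin n → ℤˣ) :
    E 0 (fun x => ind T a x * Sm x) = sg T a / 2 ^ T.card := by
  have h : (fun x : Fin n → ℤˣ => ind T a x * Sm x)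
      = fun x => ∑ p : Fin n, ind T a x * psi 0 {p} x := by
    funext x
    rw [Sm, Finset.mul_sum]
    simp [psi]
  rw [h, E_sum]
  simp only [E_ind_psi, Finset.singleton_subset_iff, Finset.prod_singleton]
  rw [Finset.sum_ite_mem, Finset.univ_inter, sg, Finset.sum_div]

lemma E_ind_Sm_sq (T : Finset (Fin n)) (a : Fin n → ℤˣ) :
    E 0 (fun x => ind T a x * (Sm x) ^ 2)
      = (n + (sg T a) ^ 2 - T.card) / 2 ^ T.card := by
  have h : (fun x : Fin n → ℤˣ => ind T a x * (Sm x) ^ 2)
      = fun x => ∑ p : Fin n, ∑ q : Fin n, ind T a x * psi 0 (symmDiff {p} {q}) x := by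
    funext x
    have h1 : (Sm x) ^ 2 = ∑ p : Fin n, ∑ q : Fin n, psi 0 (symmDiff {p} {q}) x := by
      rw [sq, Sm, Finset.sum_mul_sum]
      refine Finset.sum_congr rfl fun p _ => Finset.sum_congr rfl fun q _ => ?_
      rw [← psi_mul]
      simp [psi]
    rw [h1, Finset.mul_sum]
    refine Finset.sum_congr rfl fun p _ => ?_
    rw [Finset.mul_sum]
  rw [h, E_sum]
  have h2 : ∀ p : Fin n, E 0 (fun x => ∑ q : Fin n, ind T a x * psi 0 (symmDiff {p} {q}) x)
      = ∑ q : Fin n, (if p = q then 1 / 2 ^ T.card else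
        if p ∈ T ∧ q ∈ T then rv (a p) * rv (a q) / 2 ^ T.card else 0) := by
    intro p
    rw [E_sum]
    refine Finset.sum_congr rfl fun q _ => ?_
    rw [E_ind_psi]
    by_cases hpq : p = q
    · subst hpq
      simp
    · have h3 : symmDiff ({p} : Finset (Fin n)) {q} = {p, q} := by
        ext i
        simp only [Finset.mem_symmDiff, Finset.mem_singleton, Finset.mem_insert]
        constructor
        · tauto
        · rintro (h | h)
          · left; exact ⟨h, fun h4 => hpq (h.symm.trans h4)⟩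
          · right; exact ⟨h, fun h4 => hpq (h4.symm.trans h)⟩
      rw [h3, if_neg hpq, Finset.prod_pair hpq]
      simp only [Finset.insert_subset_iff, Finset.singleton_subset_iff]
  simp only [h2]
  have h4 : ∀ p : Fin n, ∑ q : Fin n, (if p = q then 1 / 2 ^ T.card else
        if p ∈ T ∧ q ∈ T then rv (a p) * rv (a q) / 2 ^ T.card else 0)
      = (1 / 2 ^ T.card : ℝ) - (if p ∈ T then 1 / 2 ^ T.card else 0)
        + (if p ∈ T then rv (a p) * sg T a / 2 ^ T.card else 0) := by
    intro p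
    have h5 : ∀ q : Fin n, (if p = q then 1 / 2 ^ T.card else
        if p ∈ T ∧ q ∈ T then rv (a p) * rv (a q) / 2 ^ T.card else 0)
        = (if p = q then ((1 / 2 ^ T.card : ℝ) - (if p ∈ T then 1 / 2 ^ T.card else 0)) else 0)
          + (if q ∈ T then (if p ∈ T then rv (a p) * rv (a q) / 2 ^ T.card else 0) else 0) := by
      intro q
      by_cases hpq : p = q
      · subst hpq
        by_cases hp : p ∈ T
        · simp only [hp, if_true, rv_sq]; ring
        · simp [hp]
      · by_cases hp : p ∈ T <;> by_cases hq : q ∈ T <;> simp [hpq, hp, hq]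
    simp only [h5]
    rw [Finset.sum_add_distrib, Finset.sum_ite_eq, Finset.sum_ite_mem, Finset.univ_inter]
    simp only [Finset.mem_univ, if_true]
    congr 1
    split_ifs with hp
    · rw [sg, Finset.mul_sum, Finset.sum_div]
    · simp
  simp only [h4]
  rw [Finset.sum_add_distrib, Finset.sum_sub_distrib, Finset.sum_ite_mem, Finset.univ_inter,
    Finset.sum_ite_mem, Finset.univ_inter]
  have h6 : ∑ i ∈ T, rv (a i) * sg T a / 2 ^ T.card = sg T a * sg T a / 2 ^ T.card := by
    rw [← Finset.sum_div, ← Finset.sum_mul]; rfl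
  rw [h6]
  simp only [Finset.sum_const, Finset.card_univ, Fintype.card_fin, nsmul_eq_mul]
  ring

lemma lin_eq_E (f : (Fin n → ℤˣ) → ℤˣ) : lin f = E 0 (fun x => R f x * Sm x) := by
  rw [lin_eq, E_zero_eq, Fintype.card_fin]

lemma E_Sm_sq : E 0 (fun x : Fin n → ℤˣ => (Sm x) ^ 2) = n := by
  rw [E_zero_eq, moment_two, Fintype.card_fin]
  field_simp

/-- Partition into subcubes: `lin f ≤ √(average codimension)`. -/
lemma lin_partition {J : Type} [Fintype J] (f : (Fin n → ℤˣ) → ℤˣ)
    (T : J → Finset (Fin n)) (a : J → Fin n → ℤˣ)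
    (hpart : ∀ x : Fin n → ℤˣ, ∃! j, ∀ i ∈ T j, x i = a j i)
    (hconst : ∀ j, ∀ x : Fin n → ℤˣ, (∀ i ∈ T j, x i = a j i) → f x = f (a j)) :
    lin f ≤ Real.sqrt (∑ j, ((T j).card : ℝ) / 2 ^ (T j).card) := by
  classical
  have hsum : ∀ x : Fin n → ℤˣ, ∑ j, ind (T j) (a j) x = 1 := by
    intro x
    obtain ⟨j, hj, huniq⟩ := hpart x
    rw [Finset.sum_eq_single j]
    · exact ind_of_mem hj
    · intro k _ hk
      exact ind_of_not_mem (fun h => hk (huniq k h))
    · intro h; exact absurd (Finset.mem_univ _) h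
  have hmass : ∑ j, (1 : ℝ) / 2 ^ (T j).card = 1 := by
    have h1 : ∀ j, E 0 (ind (T j) (a j)) = 1 / 2 ^ (T j).card := by
      intro j
      rw [E_ind]
      simp [Finset.prod_const]
    calc ∑ j, (1 : ℝ) / 2 ^ (T j).card = ∑ j, E 0 (ind (T j) (a j)) :=
          Finset.sum_congr rfl fun j _ => (h1 j).symm
      _ = E 0 (fun x => ∑ j, ind (T j) (a j) x) := (E_sum 0 _ _).symm
      _ = E 0 (fun _ : Fin n → ℤˣ => (1 : ℝ)) := by congr 1; funext x; exact hsum x
      _ = 1 := E_const 0 1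
  have hsecond : ∑ j, (sg (T j) (a j)) ^ 2 / 2 ^ (T j).card
      = ∑ j, ((T j).card : ℝ) / 2 ^ (T j).card := by
    have h1 : ∑ j, ((n : ℝ) + (sg (T j) (a j)) ^ 2 - (T j).card) / (2 : ℝ) ^ (T j).card
        = (n : ℝ) := by
      calc ∑ j, ((n : ℝ) + (sg (T j) (a j)) ^ 2 - (T j).card) / 2 ^ (T j).card
          = ∑ j, E 0 (fun x => ind (T j) (a j) x * (Sm x) ^ 2) :=
            Finset.sum_congr rfl fun j _ => (E_ind_Sm_sq _ _).symm
        _ = E 0 (fun x => ∑ j, ind (T j) (a j) x * (Sm x) ^ 2) := (E_sum 0 _ _).symm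
        _ = E 0 (fun x : Fin n → ℤˣ => (Sm x) ^ 2) := by
            congr 1; funext x; rw [← Finset.sum_mul, hsum x, one_mul]
        _ = n := E_Sm_sq
    have h2 : ∑ j, ((n : ℝ) + (sg (T j) (a j)) ^ 2 - (T j).card) / 2 ^ (T j).card
        = n * ∑ j, (1 : ℝ) / 2 ^ (T j).card + ∑ j, (sg (T j) (a j)) ^ 2 / 2 ^ (T j).card
          - ∑ j, ((T j).card : ℝ) / 2 ^ (T j).card := by
      rw [Finset.mul_sum, ← Finset.sum_add_distrib, ← Finset.sum_sub_distrib]
      exact Finset.sum_congr rfl fun j _ => by ring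
    rw [h2, hmass] at h1
    linarith
  have hlin : lin f = ∑ j, R f (a j) * (sg (T j) (a j) / 2 ^ (T j).card) := by
    rw [lin_eq_E]
    have h1 : (fun x : Fin n → ℤˣ => R f x * Sm x)
        = fun x => ∑ j, R f (a j) * (ind (T j) (a j) x * Sm x) := by
      funext x
      have h2 : ∀ j, R f (a j) * (ind (T j) (a j) x * Sm x)
          = R f x * Sm x * ind (T j) (a j) x := by
        intro j
        by_cases hx : ∀ i ∈ T j, x i = a j i
        · have h3 : R f x = R f (a j) := by simp only [R]; rw [hconst j x hx]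
          rw [h3]; ring
        · rw [ind_of_not_mem hx]; ring
      simp only [h2]
      rw [← Finset.mul_sum, hsum x, mul_one]
    rw [h1, E_sum]
    refine Finset.sum_congr rfl fun j _ => ?_
    rw [E_mul_left, E_ind_Sm]
  have hle : lin f ≤ ∑ j, Real.sqrt (1 / 2 ^ (T j).card)
      * Real.sqrt ((sg (T j) (a j)) ^ 2 / 2 ^ (T j).card) := by
    rw [hlin]
    refine Finset.sum_le_sum fun j _ => ?_
    rw [← Real.sqrt_mul (by positivity)]
    have h1 : (1 : ℝ) / 2 ^ (T j).card * ((sg (T j) (a j)) ^ 2 / 2 ^ (T j).card)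
        = (sg (T j) (a j) / 2 ^ (T j).card) ^ 2 := by ring
    rw [h1, Real.sqrt_sq_eq_abs]
    rcases R_cases f (a j) with h | h <;> rw [h]
    · rw [one_mul]; exact le_abs_self _
    · rw [neg_one_mul]; exact neg_le_abs _
  refine hle.trans ?_
  refine (Real.sum_sqrt_mul_sqrt_le _ (fun j => by positivity) (fun j => by positivity)).trans ?_
  rw [hmass, hsecond, Real.sqrt_one, one_mul]

end P047
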