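import Mathlib
import Vale.Agent.P047.UC

/-!
# P047: one-sided unambiguous certificates
-/

open Finset

namespace P047

variable {n : ℕ}

lemma exp_two_mul_le {y : ℝ} (h0 : 0 ≤ y) (h1 : y < 1) : Real.exp (2 * y) ≤ (1 + y) / (1 - y) := by
  have hpos : 0 < (1 + y) / (1 - y) := div_pos (by linarith) (by linarith)
  rw [← Real.le_log_iff_exp_le hpos, Real.log_div (by linarith) (by linarith)]
  have habs : |y| < 1 := by rw [abs_of_nonneg h0]; exact h1
  have hs := Real.hasSum_log_sub_log_of_abs_lt_one habs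
  have := le_hasSum hs 0 (fun k _ => by positivity)
  simpa using this

lemma pow_ge_exp (k : ℕ) (hk : 1 ≤ k) : Real.exp (-1) ≤ (1 - 1 / ((k : ℝ) + 1)) ^ k := by
  have hkpos : (0 : ℝ) < k := by exact_mod_cast hk
  have h1 : (1 - 1 / ((k : ℝ) + 1)) = (1 + 1 / (k : ℝ))⁻¹ := by field_simp; ring
  rw [h1, inv_pow, Real.exp_neg]
  apply inv_anti₀ (by positivity)
  have h2 : 1 + 1 / (k : ℝ) ≤ Real.exp (1 / k) := by
    have := Real.add_one_le_exp (1 / (k : ℝ)); linarith
  calc (1 + 1 / (k : ℝ)) ^ k ≤ (Real.exp (1 / k)) ^ k := pow_le_pow_left₀ (by positivity) h2 k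
    _ = Real.exp 1 := by rw [← Real.exp_nat_mul]; congr 1; field_simp

/-- the tilt inequality for one subcube -/
lemma tilt (k : ℕ) (hk : 1 ≤ k) (T : Finset (Fin n)) (a : Fin n → ℤˣ) (hT : T.card ≤ k) (y : ℝ)
    (hy0 : 0 < y) (hy1 : y < 1) (hy : y ^ 2 = 1 / ((k : ℝ) + 1)) :
    sg T a * Real.sqrt (Real.exp 1) * y ≤ ∏ i ∈ T, (1 + rv (a i) * y) := by
  classical
  have hPpos : 0 < ∏ i ∈ T, (1 + rv (a i) * y) := by
    apply Finset.prod_pos
    intro i _
    rcases rv_cases (a i) with h | h <;> rw [h] <;> linarith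
  rcases le_or_gt (sg T a) 0 with hs | hs
  · have : sg T a * Real.sqrt (Real.exp 1) * y ≤ 0 := by
      have h1 : 0 ≤ Real.sqrt (Real.exp 1) * y := by positivity
      nlinarith
    linarith
  -- square
  have hprod : (∏ i ∈ T, (1 + rv (a i) * y)) ^ 2
      = (1 - y ^ 2) ^ T.card * ∏ i ∈ T, ((1 + rv (a i) * y) / (1 - rv (a i) * y)) := by
    rw [← Finset.prod_pow, ← Finset.prod_const, ← Finset.prod_mul_distrib]
    refine Finset.prod_congr rfl fun i _ => ?_
    rcases rv_cases (a i) with h | h <;> rw [h]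
    · have : (1 - 1 * y) ≠ 0 := by linarith
      rw [← mul_div_assoc, eq_div_iff this]
      ring
    · have : (1 - (-1) * y) ≠ 0 := by linarith
      rw [← mul_div_assoc, eq_div_iff this]
      ring
  have hratio : ∀ i, Real.exp (2 * y * rv (a i)) ≤ (1 + rv (a i) * y) / (1 - rv (a i) * y) ∨
      rv (a i) = -1 := by
    intro i
    rcases rv_cases (a i) with h | h
    · left; rw [h]; simpa using exp_two_mul_le hy0.le hy1
    · right; exact h
  -- the product of the ratios is r^sg with r = (1+y)/(1-y)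
  set r : ℝ := (1 + y) / (1 - y) with hr
  have hrpos : 0 < r := div_pos (by linarith) (by linarith)
  have hlogr : 2 * y ≤ Real.log r := by
    rw [Real.le_log_iff_exp_le hrpos]; exact exp_two_mul_le hy0.le hy1
  have hprod2 : ∏ i ∈ T, ((1 + rv (a i) * y) / (1 - rv (a i) * y))
      = Real.exp (sg T a * Real.log r) := by
    rw [sg, Finset.sum_mul, Real.exp_sum]
    refine Finset.prod_congr rfl fun i _ => ?_
    rcases rv_cases (a i) with h | h <;> rw [h]
    · rw [one_mul, one_mul, Real.exp_log hrpos]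
    · rw [neg_one_mul, neg_one_mul, Real.exp_neg, Real.exp_log hrpos, hr, inv_div]
      ring
  have hexp : (Real.exp 1) * (sg T a * y) ^ 2 * Real.exp 1
      ≤ Real.exp (sg T a * Real.log r) := by
    have h1 : Real.exp (2 * (sg T a * y)) ≤ Real.exp (sg T a * Real.log r) := by
      apply Real.exp_le_exp.mpr
      nlinarith
    have h2 : Real.exp 1 * (sg T a * y) ≤ Real.exp (sg T a * y) := by
      have h3 := Real.add_one_le_exp (sg T a * y - 1)
      have h4 : Real.exp (sg T a * y) = Real.exp 1 * Real.exp (sg T a * y - 1) := by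
        rw [← Real.exp_add]; congr 1; ring
      rw [h4]
      apply mul_le_mul_of_nonneg_left _ (Real.exp_pos 1).le
      linarith
    have h5 : 0 ≤ Real.exp 1 * (sg T a * y) := by positivity
    have h6 : (Real.exp 1 * (sg T a * y)) ^ 2 ≤ (Real.exp (sg T a * y)) ^ 2 :=
      pow_le_pow_left₀ h5 h2 2
    have h7 : (Real.exp (sg T a * y)) ^ 2 = Real.exp (2 * (sg T a * y)) := by
      rw [← Real.exp_nat_mul]; push_cast; ring_nf
    calc (Real.exp 1) * (sg T a * y) ^ 2 * Real.exp 1
        = (Real.exp 1 * (sg T a * y)) ^ 2 := by ring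
      _ ≤ Real.exp (2 * (sg T a * y)) := by rw [← h7]; exact h6
      _ ≤ _ := h1
  have hbase : Real.exp (-1) ≤ (1 - y ^ 2) ^ T.card := by
    rw [hy]
    refine (pow_ge_exp k hk).trans ?_
    apply pow_le_pow_of_le_one
    · have : 1 / ((k : ℝ) + 1) ≤ 1 := by
        rw [div_le_one (by positivity)]; linarith [Nat.cast_nonneg (α := ℝ) k]
      linarith
    · have : 0 ≤ 1 / ((k : ℝ) + 1) := by positivity
      linarith
    · exact hT
  have hfin : (sg T a * Real.sqrt (Real.exp 1) * y) ^ 2 ≤ (∏ i ∈ T, (1 + rv (a i) * y)) ^ 2 := by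
    rw [hprod, hprod2]
    have h1 : (sg T a * Real.sqrt (Real.exp 1) * y) ^ 2 = Real.exp (-1) *
        ((Real.exp 1) * (sg T a * y) ^ 2 * Real.exp 1) := by
      rw [mul_pow, mul_pow, Real.sq_sqrt (Real.exp_pos 1).le, Real.exp_neg]
      have := (Real.exp_pos 1).ne'
      field_simp
    rw [h1]
    exact mul_le_mul hbase hexp (by positivity) (le_trans (Real.exp_pos _).le hbase)
  exact abs_le_of_sq_le_sq' hfin hPpos.le |>.2

/-- One-sided version: the inputs with value `1` are partitioned into subcubes of codimension at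
most `k`. -/
lemma lin_one_sided {J : Type} [Fintype J] (f : (Fin n → ℤˣ) → ℤˣ) (k : ℕ) (hk : 1 ≤ k)
    (T : J → Finset (Fin n)) (a : J → Fin n → ℤˣ) (hT : ∀ j, (T j).card ≤ k)
    (hcover : ∀ x : Fin n → ℤˣ, f x = 1 ↔ ∃ j, ∀ i ∈ T j, x i = a j i)
    (hdisj : ∀ x : Fin n → ℤˣ, ∀ j j', (∀ i ∈ T j, x i = a j i) → (∀ i ∈ T j', x i = a j' i) →
      j = j') :
    lin f ≤ 2 / Real.sqrt (Real.exp 1) * Real.sqrt ((k : ℝ) + 1) := by
  classical
  have hkpos : (0 : ℝ) < k := by exact_mod_cast hk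
  set y : ℝ := 1 / Real.sqrt ((k : ℝ) + 1) with hy
  have hs : 0 < Real.sqrt ((k : ℝ) + 1) := Real.sqrt_pos.mpr (by linarith)
  have hs1 : 1 < Real.sqrt ((k : ℝ) + 1) := by
    rw [Real.lt_sqrt (by norm_num)]; linarith
  have hy0 : 0 < y := by positivity
  have hy1 : y < 1 := by rw [hy, div_lt_one hs]; exact hs1
  have hy2 : y ^ 2 = 1 / ((k : ℝ) + 1) := by
    rw [hy, div_pow, one_pow, Real.sq_sqrt (by linarith)]
  have hsum : ∀ x : Fin n → ℤˣ, ∑ j, ind (T j) (a j) x = (1 + R f x) / 2 := by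
    intro x
    rcases Int.units_eq_one_or (f x) with h | h
    · obtain ⟨j, hj⟩ := (hcover x).mp h
      rw [Finset.sum_eq_single j]
      · rw [ind_of_mem hj]; simp [R, h]
      · intro j' _ hj'
        exact ind_of_not_mem (fun h2 => hj' (hdisj x j' j h2 hj))
      · intro h; exact absurd (Finset.mem_univ _) h
    · have hno : ∀ j, ¬ ∀ i ∈ T j, x i = a j i := by
        intro j hj
        have := (hcover x).mpr ⟨j, hj⟩
        rw [h] at this
        exact absurd this (by decide)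
      rw [Finset.sum_eq_zero (fun j _ => ind_of_not_mem (hno j))]
      simp [R, h]
  have htilt : ∑ j, ∏ i ∈ T j, (1 + rv (a j i) * y) / 2 ≤ 1 := by
    calc ∑ j, ∏ i ∈ T j, (1 + rv (a j i) * y) / 2 = ∑ j, E y (ind (T j) (a j)) :=
          Finset.sum_congr rfl fun j _ => (E_ind y _ _).symm
      _ = E y (fun x => ∑ j, ind (T j) (a j) x) := (E_sum y _ _).symm
      _ ≤ E y (fun _ : Fin n → ℤˣ => (1 : ℝ)) := by
          apply E_mono (by linarith) hy1.le
          intro x
          rw [hsum x]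
          rcases R_cases f x with h | h <;> rw [h] <;> norm_num
      _ = 1 := E_const y 1
  have hlin : lin f = 2 * ∑ j, sg (T j) (a j) / 2 ^ (T j).card := by
    have h0 : E 0 (fun x : Fin n → ℤˣ => Sm x) = 0 := by
      have := E_ind_Sm (∅ : Finset (Fin n)) (fun _ => 1)
      simpa [ind, sg] using this
    have h1 : E 0 (fun x => ∑ j, ind (T j) (a j) x * Sm x)
        = ∑ j, sg (T j) (a j) / 2 ^ (T j).card := by
      rw [E_sum]
      exact Finset.sum_congr rfl fun j _ => E_ind_Sm _ _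
    have h2 : (fun x : Fin n → ℤˣ => ∑ j, ind (T j) (a j) x * Sm x)
        = fun x => (1 / 2) * (Sm x + R f x * Sm x) := by
      funext x
      rw [← Finset.sum_mul, hsum x]
      ring
    rw [h2, E_mul_left, E_add, h0, ← lin_eq_E] at h1
    linarith
  rw [hlin]
  have hc : 0 < Real.sqrt (Real.exp 1) := Real.sqrt_pos.mpr (Real.exp_pos 1)
  have hterm : ∀ j, sg (T j) (a j) / 2 ^ (T j).card
      ≤ (1 / Real.sqrt (Real.exp 1) * Real.sqrt ((k : ℝ) + 1))
        * ∏ i ∈ T j, (1 + rv (a j i) * y) / 2 := by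
    intro j
    have h1 := tilt k hk (T j) (a j) (hT j) y hy0 hy1 hy2
    have h2 : ∏ i ∈ T j, (1 + rv (a j i) * y) / 2
        = (∏ i ∈ T j, (1 + rv (a j i) * y)) / 2 ^ (T j).card := by
      rw [Finset.prod_div_distrib, Finset.prod_const]
    rw [h2, ← mul_div_assoc]
    apply div_le_div_of_nonneg_right _ (by positivity)
    have h3 : sg (T j) (a j) = (1 / Real.sqrt (Real.exp 1) * Real.sqrt ((k : ℝ) + 1)) *
        (sg (T j) (a j) * Real.sqrt (Real.exp 1) * y) := by
      rw [hy]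
      calc sg (T j) (a j) = (1 / Real.sqrt (Real.exp 1) * Real.sqrt (Real.exp 1))
            * (Real.sqrt ((k : ℝ) + 1) * (1 / Real.sqrt ((k : ℝ) + 1))) * sg (T j) (a j) := by
            rw [one_div_mul_cancel hc.ne', mul_one_div_cancel hs.ne']; ring
        _ = _ := by ring
    rw [h3]
    exact mul_le_mul_of_nonneg_left h1 (by positivity)
  calc 2 * ∑ j, sg (T j) (a j) / 2 ^ (T j).card
      ≤ 2 * ∑ j, (1 / Real.sqrt (Real.exp 1) * Real.sqrt ((k : ℝ) + 1))
        * ∏ i ∈ T j, (1 + rv (a j i) * y) / 2 :=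
        mul_le_mul_of_nonneg_left (Finset.sum_le_sum fun j _ => hterm j) (by norm_num)
    _ = 2 * ((1 / Real.sqrt (Real.exp 1) * Real.sqrt ((k : ℝ) + 1))
        * ∑ j, ∏ i ∈ T j, (1 + rv (a j i) * y) / 2) := by rw [← Finset.mul_sum]
    _ ≤ 2 * ((1 / Real.sqrt (Real.exp 1) * Real.sqrt ((k : ℝ) + 1)) * 1) := by
        apply mul_le_mul_of_nonneg_left _ (by norm_num)
        exact mul_le_mul_of_nonneg_left htilt (by positivity)
    _ = _ := by ring

end P047
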