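import Mathlib
import Vale.Agent.P047.Bias
import Vale.Agent.P047.Bound
import Vale.Agent.P047.UCone

/-!
# P047: assembling the results
-/

open Finset

namespace P047

lemma coeff_eq {n : ℕ} (f : (Fin n → ℤˣ) → ℤˣ) (S : Finset (Fin n)) :
    coeff f S = fh (R f) S := by
  unfold coeff fh
  rw [E_zero_eq, Fintype.card_fin]
  congr 1
  refine Finset.sum_congr rfl fun x _ => ?_
  simp [R, psi, rv]

lemma levelOne_eq {n : ℕ} (f : (Fin n → ℤˣ) → ℤˣ) : levelOne f = lin f := by
  unfold levelOne lin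
  exact Finset.sum_congr rfl fun i _ => coeff_eq f {i}

lemma deg_le_iff {n : ℕ} (f : (Fin n → ℤˣ) → ℤˣ) (d : ℕ) : deg f ≤ d ↔ DL f d := by
  unfold deg
  rw [Finset.sup_le_iff]
  constructor
  · intro h
    apply mem_of_fh
    intro S hS
    by_contra hne
    have := h S (by simp [coeff_eq, hne])
    omega
  · intro h S hS
    simp only [Finset.mem_filter, Finset.mem_univ, true_and, coeff_eq] at hS
    by_contra hc
    exact hS (fh_eq_zero_of_mem h S (not_le.mp hc))

lemma DL_fh {ι : Type} [Fintype ι] [DecidableEq ι] {f : (ι → ℤˣ) → ℤˣ} {d : ℕ} (h : DL f d) :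
    ∀ S : Finset ι, d < S.card → fh (R f) S = 0 := fun S hS => fh_eq_zero_of_mem h S hS

lemma abs_fh_sum_le {ι : Type} [Fintype ι] [DecidableEq ι] {f : (ι → ℤˣ) → ℤˣ} {d : ℕ}
    (h : DL f d) : lin f ≤ d := by
  have h1 := influence (y := 0) (by norm_num) (by norm_num) (R_cases f) (DL_fh h)
  have h2 : ∀ i, cf 0 (R f) {i} = fh (R f) {i} := by
    intro i
    unfold cf
    rw [Finset.sum_eq_single ({i} : Finset ι)]
    · simp
    · intro S _ hS
      split_ifs with hh
      · have hlt : ({i} : Finset ι).card < S.card :=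
          Finset.card_lt_card (Finset.ssubset_iff_subset_ne.mpr ⟨hh, fun hh => hS hh.symm⟩)
        rw [zero_pow (by omega)]; ring
      · rfl
    · intro h; exact absurd (Finset.mem_univ _) h
  simp only [h2] at h1
  have h3 : lin f ≤ ∑ i, |fh (R f) {i}| := Finset.sum_le_sum fun i _ => le_abs_self _
  have h4 : (d : ℝ) * (1 - (cf 0 (R f) ∅) ^ 2) ≤ d := by
    have : 0 ≤ (d : ℝ) * (cf 0 (R f) ∅) ^ 2 := by positivity
    linarith
  norm_num at h1
  linarith

lemma bdd (d : ℕ) : BddAbove (values d) := by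
  refine ⟨d, ?_⟩
  rintro s ⟨n, _, f, hf, rfl⟩
  rw [levelOne_eq]
  exact abs_fh_sum_le ((deg_le_iff f d).mp hf)

lemma le_M_fin {n : ℕ} (hn : 1 ≤ n) {f : (Fin n → ℤˣ) → ℤˣ} {d : ℕ} (h : DL f d) :
    lin f ≤ M d := by
  apply le_csSup (bdd d)
  exact ⟨n, hn, f, (deg_le_iff f d).mpr h, (levelOne_eq f).symm⟩

lemma values_nonempty (d : ℕ) : (values d).Nonempty := by
  refine ⟨_, 1, le_rfl, fun _ => 1, ?_, rfl⟩
  rw [deg_le_iff]
  have : R (fun _ : Fin 1 → ℤˣ => (1 : ℤˣ)) = 1 := by funext x; simp [R]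
  unfold DL
  rw [this]
  exact one_mem_Sp d

lemma M_mono {a b : ℕ} (h : a ≤ b) : M a ≤ M b := by
  apply csSup_le_csSup (bdd b) (values_nonempty a)
  rintro s ⟨n, hn, f, hf, rfl⟩
  exact ⟨n, hn, f, hf.trans h, rfl⟩

lemma one_le_M {d : ℕ} (hd : 1 ≤ d) : 1 ≤ M d := by
  have hR : R (fun x : Fin 1 → ℤˣ => x 0) = psi 0 {0} := by
    funext x; simp [R, psi]
  have h1 : lin (fun x : Fin 1 → ℤˣ => x 0) = 1 := by
    simp only [lin, hR]
    simp [fh_psi]
  rw [← h1]
  apply le_M_fin le_rfl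
  unfold DL
  rw [hR]
  exact psi_mem (by simpa using hd)

lemma M_le_d (d : ℕ) : M d ≤ d := by
  apply csSup_le (values_nonempty d)
  rintro s ⟨n, _, f, hf, rfl⟩
  rw [levelOne_eq]
  exact abs_fh_sum_le ((deg_le_iff f d).mp hf)

lemma maj_le_M {d : ℕ} (hd : 1 ≤ d) : 5 / 9 * Real.sqrt d ≤ M d := by
  refine (lin_maj d hd).trans (le_M_fin hd ?_)
  have := DL_univ (maj d)
  rwa [Fintype.card_fin] at this

lemma lin_pow_le {n : ℕ} {f : (Fin n → ℤˣ) → ℤˣ} {d : ℕ} (hd : 2 ≤ d) (hf : DL f d)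
    (hl : 0 ≤ lin f) {k D : ℕ} (hD : 2 * d ^ k ≤ D) : (lin f) ^ k ≤ M D := by
  obtain ⟨m, g, hm, _, hg, hgl⟩ := amplify hd hf hl k
  exact hgl.trans ((le_M_fin hm hg).trans (M_mono ((Nat.sub_le _ _).trans hD)))

lemma M_pow_le {d : ℕ} (hd : 2 ≤ d) {k D : ℕ} (hk : 1 ≤ k) (hD : 2 * d ^ k ≤ D) :
    (M d) ^ k ≤ M D := by
  have hMD : 0 ≤ M D := zero_le_one.trans (one_le_M (by
    have := Nat.one_le_pow k d (by omega); omega))
  have hk0 : (k : ℝ) ≠ 0 := by positivity
  have h1 : M d ≤ (M D) ^ (1 / (k : ℝ)) := by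
    apply csSup_le (values_nonempty d)
    rintro s ⟨n, hn, f, hf, rfl⟩
    rw [levelOne_eq]
    rcases le_or_gt 0 (lin f) with hl | hl
    · have h2 := lin_pow_le hd ((deg_le_iff f d).mp hf) hl hD
      have h3 : lin f = ((lin f) ^ k) ^ (1 / (k : ℝ)) := by
        rw [← Real.rpow_natCast, ← Real.rpow_mul hl, mul_one_div_cancel hk0, Real.rpow_one]
      rw [h3]
      exact Real.rpow_le_rpow (by positivity) h2 (by positivity)
    · exact hl.le.trans (Real.rpow_nonneg hMD _)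
  have h4 : 0 ≤ M d := zero_le_one.trans (one_le_M (by omega))
  calc (M d) ^ k ≤ ((M D) ^ (1 / (k : ℝ))) ^ k := pow_le_pow_left₀ h4 h1 k
    _ = M D := by
      rw [← Real.rpow_natCast, ← Real.rpow_mul hMD, one_div_mul_cancel hk0, Real.rpow_one]

/-- the exponent of `M` at `d` -/
noncomputable def ex (d : ℕ) : ℝ := Real.log (M d) / Real.log d

lemma log_pos_nat {d : ℕ} (hd : 2 ≤ d) : 0 < Real.log d :=
  Real.log_pos (by exact_mod_cast (by omega : 1 < d))

lemma ex_le_one {d : ℕ} (hd : 2 ≤ d) : ex d ≤ 1 := by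
  unfold ex
  rw [div_le_one (log_pos_nat hd)]
  exact Real.log_le_log (lt_of_lt_of_le one_pos (one_le_M (by omega))) (M_le_d d)

lemma ex_nonneg {d : ℕ} (hd : 2 ≤ d) : 0 ≤ ex d := by
  unfold ex
  exact div_nonneg (Real.log_nonneg (one_le_M (by omega))) (log_pos_nat hd).le

/-- the growth exponent -/
noncomputable def gam : ℝ := sSup {e | ∃ d : ℕ, 2 ≤ d ∧ e = ex d}

lemma gam_bdd : BddAbove {e | ∃ d : ℕ, 2 ≤ d ∧ e = ex d} :=
  ⟨1, by rintro e ⟨d, hd, rfl⟩; exact ex_le_one hd⟩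

lemma ex_le_gam {d : ℕ} (hd : 2 ≤ d) : ex d ≤ gam := le_csSup gam_bdd ⟨d, hd, rfl⟩

lemma gam_le_one : gam ≤ 1 :=
  csSup_le ⟨_, 2, le_rfl, rfl⟩ (by rintro e ⟨d, hd, rfl⟩; exact ex_le_one hd)

lemma M_le_rpow {d : ℕ} (hd : 1 ≤ d) : M d ≤ (d : ℝ) ^ gam := by
  rcases hd.eq_or_lt with h | h
  · subst h
    have := M_le_d 1
    simpa using this
  · have hd2 : 2 ≤ d := h
    have hl := log_pos_nat hd2
    have hM : 0 < M d := lt_of_lt_of_le one_pos (one_le_M (by omega))
    have hdp : (0 : ℝ) < d := by positivity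
    have h1 := ex_le_gam hd2
    unfold ex at h1
    rw [div_le_iff₀ hl] at h1
    calc M d = Real.exp (Real.log (M d)) := (Real.exp_log hM).symm
      _ ≤ Real.exp (gam * Real.log d) := Real.exp_le_exp.mpr h1
      _ = (d : ℝ) ^ gam := by rw [Real.rpow_def_of_pos hdp, mul_comm]

/-- lower bound on the exponent at `D` in terms of the exponent at `d` -/
lemma ex_ge {d D : ℕ} (hd : 2 ≤ d) (hD : 2 * d ≤ D) :
    ex d * (1 - (Real.log 2 + Real.log d) / Real.log D) ≤ ex D := by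
  set k := Nat.log d (D / 2) with hk
  have hD2 : d ≤ D / 2 := by omega
  have hk1 : 1 ≤ k := by
    rw [hk]
    exact Nat.log_pos (by omega) hD2
  have hle : d ^ k ≤ D / 2 := Nat.pow_log_le_self d (by omega)
  have hlt : D / 2 < d ^ (k + 1) := Nat.lt_pow_succ_log_self (by omega) _
  have h2 : 2 * d ^ k ≤ D := by omega
  have h3 : D < 2 * d ^ (k + 1) := by omega
  have hM := M_pow_le hd hk1 h2
  have hMd : 1 ≤ M d := one_le_M (by omega)
  have hl := log_pos_nat hd
  have hDl : 0 < Real.log D := log_pos_nat (by omega)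
  have h4 : k * Real.log (M d) ≤ Real.log (M D) := by
    rw [← Real.log_pow]
    exact Real.log_le_log (by positivity) hM
  have h5 : Real.log D ≤ Real.log 2 + (k + 1) * Real.log d := by
    have : (D : ℝ) ≤ 2 * (d : ℝ) ^ (k + 1) := by exact_mod_cast h3.le
    have hDp : (0 : ℝ) < D := by
      have : 0 < D := by omega
      exact_mod_cast this
    have h6 := Real.log_le_log hDp this
    rwa [Real.log_mul (by norm_num) (by positivity), Real.log_pow, Nat.cast_add,
      Nat.cast_one] at h6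
  unfold ex
  rw [le_div_iff₀ hDl]
  have h7 : Real.log (M d) / Real.log d * (1 - (Real.log 2 + Real.log d) / Real.log D)
      * Real.log D = Real.log (M d) / Real.log d * (Real.log D - Real.log 2 - Real.log d) := by
    field_simp
    ring
  rw [h7]
  have h8 : Real.log D - Real.log 2 - Real.log d ≤ k * Real.log d := by linarith
  have h9 : 0 ≤ Real.log (M d) / Real.log d := div_nonneg (Real.log_nonneg hMd) hl.le
  calc Real.log (M d) / Real.log d * (Real.log D - Real.log 2 - Real.log d)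
      ≤ Real.log (M d) / Real.log d * (k * Real.log d) := mul_le_mul_of_nonneg_left h8 h9
    _ = k * Real.log (M d) := by field_simp
    _ ≤ _ := h4

lemma tendsto_log_nat : Filter.Tendsto (fun D : ℕ => Real.log (D : ℝ)) Filter.atTop Filter.atTop :=
  Real.tendsto_log_atTop.comp tendsto_natCast_atTop_atTop

lemma ex_tendsto : Filter.Tendsto ex Filter.atTop (nhds gam) := by
  rw [tendsto_order]
  constructor
  · intro b hb
    have hne : {e | ∃ d : ℕ, 2 ≤ d ∧ e = ex d}.Nonempty := ⟨_, 2, le_rfl, rfl⟩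
    obtain ⟨e, ⟨d, hd, rfl⟩, hbe⟩ := exists_lt_of_lt_csSup hne hb
    have h1 : Filter.Tendsto
        (fun D : ℕ => ex d * (1 - (Real.log 2 + Real.log d) / Real.log (D : ℝ)))
        Filter.atTop (nhds (ex d * (1 - 0))) := by
      apply Filter.Tendsto.const_mul
      apply Filter.Tendsto.const_sub
      exact Filter.Tendsto.div_atTop tendsto_const_nhds tendsto_log_nat
    rw [sub_zero, mul_one] at h1
    filter_upwards [h1.eventually (lt_mem_nhds hbe), Filter.eventually_ge_atTop (2 * d)]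
      with D hD1 hD2
    exact lt_of_lt_of_le hD1 (ex_ge hd hD2)
  · intro b hb
    filter_upwards [Filter.eventually_ge_atTop 2] with D hD
    exact lt_of_le_of_lt (ex_le_gam hD) hb

lemma half_le_gam : 1 / 2 ≤ gam := by
  have h1 : Filter.Tendsto (fun D : ℕ => 1 / 2 + Real.log (5 / 9) / Real.log (D : ℝ))
      Filter.atTop (nhds (1 / 2 + 0)) := by
    apply Filter.Tendsto.const_add
    exact Filter.Tendsto.div_atTop tendsto_const_nhds tendsto_log_nat
  rw [add_zero] at h1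
  refine le_of_tendsto_of_tendsto h1 ex_tendsto ?_
  filter_upwards [Filter.eventually_ge_atTop 2] with D hD
  have hl := log_pos_nat hD
  have hDp : (0 : ℝ) < D := by
    have : 0 < D := by omega
    exact_mod_cast this
  unfold ex
  rw [le_div_iff₀ hl]
  have h2 := Real.log_le_log (by positivity) (maj_le_M (by omega : 1 ≤ D))
  rw [Real.log_mul (by norm_num) (Real.sqrt_pos.mpr hDp).ne', Real.log_sqrt hDp.le] at h2
  calc (1 / 2 + Real.log (5 / 9) / Real.log D) * Real.log D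
      = Real.log (5 / 9) + Real.log D / 2 := by field_simp; ring
    _ ≤ _ := h2

/-- If `M d ≤ C d^(1/2+ε)` for every `ε`, then `M d ≤ √d`. -/
lemma strong_of_weak (h : ∀ ε : ℝ, 0 < ε → ∃ C : ℝ, ∀ d : ℕ, 1 ≤ d →
    M d ≤ C * (d : ℝ) ^ (1 / 2 + ε)) (d : ℕ) (hd : 1 ≤ d) : M d ≤ Real.sqrt d := by
  have hg : gam ≤ 1 / 2 := by
    apply le_of_forall_pos_le_add
    intro ε hε
    obtain ⟨C, hC⟩ := h ε hε
    have hCpos : 0 < C := by
      have := hC 1 le_rfl
      have h1 := one_le_M (le_refl 1)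
      simp at this
      linarith
    have h1 : Filter.Tendsto (fun D : ℕ => (1 / 2 + ε) + Real.log C / Real.log (D : ℝ))
        Filter.atTop (nhds ((1 / 2 + ε) + 0)) := by
      apply Filter.Tendsto.const_add
      exact Filter.Tendsto.div_atTop tendsto_const_nhds tendsto_log_nat
    rw [add_zero] at h1
    refine le_of_tendsto_of_tendsto ex_tendsto h1 ?_
    filter_upwards [Filter.eventually_ge_atTop 2] with D hD
    have hl := log_pos_nat hD
    have hDp : (0 : ℝ) < D := by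
      have : 0 < D := by omega
      exact_mod_cast this
    have h2 := Real.log_le_log (lt_of_lt_of_le one_pos (one_le_M (by omega))) (hC D (by omega))
    rw [Real.log_mul hCpos.ne' (Real.rpow_pos_of_pos hDp _).ne', Real.log_rpow hDp] at h2
    unfold ex
    rw [div_le_iff₀ hl]
    calc Real.log (M D) ≤ Real.log C + (1 / 2 + ε) * Real.log D := h2
      _ = (1 / 2 + ε + Real.log C / Real.log D) * Real.log D := by field_simp; ring
  have hd1 : (1 : ℝ) ≤ d := by exact_mod_cast hd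
  calc M d ≤ (d : ℝ) ^ gam := M_le_rpow hd
    _ ≤ (d : ℝ) ^ (1 / 2 : ℝ) := Real.rpow_le_rpow_of_exponent_le hd1 hg
    _ = Real.sqrt d := (Real.sqrt_eq_rpow _).symm

/-- One function above the square root forces polynomially larger growth. -/
lemma gap {n : ℕ} (f : (Fin n → ℤˣ) → ℤˣ) (hf : Real.sqrt (deg f) < levelOne f) :
    ∃ c : ℝ, 0 < c ∧ ∃ δ : ℝ, 0 < δ ∧ ∀ d : ℕ, 1 ≤ d → c * (d : ℝ) ^ (1 / 2 + δ) ≤ M d := by
  rw [levelOne_eq] at hf
  set s := lin f with hs
  set d0 := deg f with hd0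
  have hDL : DL f d0 := (deg_le_iff f d0).mp le_rfl
  have hspos : 0 < s := lt_of_le_of_lt (Real.sqrt_nonneg _) hf
  have hle : s ≤ d0 := abs_fh_sum_le hDL
  have hd2 : 2 ≤ d0 := by
    by_contra hc
    have h01 : d0 = 0 ∨ d0 = 1 := by omega
    rcases h01 with h | h
    · rw [h] at hle; simp at hle; linarith
    · rw [h] at hle hf; simp at hle hf; linarith
  have hd0pos : (0 : ℝ) < d0 := by
    have : 0 < d0 := by omega
    exact_mod_cast this
  have hl := log_pos_nat hd2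
  set δ : ℝ := Real.log s / Real.log d0 - 1 / 2 with hδ
  have hδpos : 0 < δ := by
    have h1 := Real.log_lt_log (Real.sqrt_pos.mpr hd0pos) hf
    rw [Real.log_sqrt hd0pos.le] at h1
    rw [hδ, sub_pos, lt_div_iff₀ hl]
    linarith
  have hsd : s = (d0 : ℝ) ^ (1 / 2 + δ) := by
    rw [Real.rpow_def_of_pos hd0pos, hδ]
    have : Real.log d0 * (1 / 2 + (Real.log s / Real.log d0 - 1 / 2)) = Real.log s := by
      field_simp
      ring
    rw [this, Real.exp_log hspos]
  have hs1 : 1 ≤ s := by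
    rw [hsd]
    exact Real.one_le_rpow (by exact_mod_cast (by omega : 1 ≤ d0)) (by linarith)
  refine ⟨(1 / (2 * d0 : ℝ)) ^ (1 / 2 + δ), by positivity, δ, hδpos, ?_⟩
  intro D hD
  have hDpos : (0 : ℝ) < D := by
    have : 0 < D := by omega
    exact_mod_cast this
  rw [← Real.mul_rpow (by positivity) hDpos.le]
  rcases hD.eq_or_lt with h | h
  · rw [← h]
    refine le_trans ?_ (one_le_M le_rfl)
    apply Real.rpow_le_one (by positivity)
    · rw [Nat.cast_one, mul_one, div_le_one (by positivity)]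
      have : (2 : ℝ) ≤ d0 := by exact_mod_cast hd2
      linarith
    · linarith
  · set k := Nat.log d0 (D / 2) with hk
    have hle' : d0 ^ k ≤ D / 2 := Nat.pow_log_le_self d0 (by omega)
    have hlt : D / 2 < d0 ^ (k + 1) := Nat.lt_pow_succ_log_self (by omega) _
    have h2 : 2 * d0 ^ k ≤ D := by omega
    have h3 : D < 2 * d0 ^ (k + 1) := by omega
    have hM := lin_pow_le hd2 hDL hspos.le h2
    refine le_trans ?_ hM
    have h4 : s ^ k = ((d0 : ℝ) ^ k) ^ (1 / 2 + δ) := by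
      rw [hsd, ← Real.rpow_natCast, ← Real.rpow_natCast, ← Real.rpow_mul hd0pos.le,
        ← Real.rpow_mul hd0pos.le, mul_comm]
    rw [← hs, h4]
    apply Real.rpow_le_rpow (by positivity) _ (by linarith)
    have h5 : (D : ℝ) ≤ 2 * (d0 : ℝ) ^ (k + 1) := by exact_mod_cast h3.le
    rw [one_div, inv_mul_le_iff₀ (by positivity)]
    calc (D : ℝ) ≤ 2 * (d0 : ℝ) ^ (k + 1) := h5
      _ = 2 * d0 * (d0 : ℝ) ^ k := by ring

lemma bound_identity {d : ℕ} (hd : 3 ≤ d) :
    ((d : ℝ) + 1) ^ 2 * (1 - ((d : ℝ) + 1) ^ 2 / (4 * (d : ℝ) ^ 2))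
      = (((d : ℝ) + 1) / (2 * d) * Real.sqrt (((d : ℝ) - 1) * (3 * d + 1))) ^ 2 := by
  have hd3 : (3 : ℝ) ≤ d := by exact_mod_cast hd
  rw [mul_pow, Real.sq_sqrt (by nlinarith)]
  field_simp
  ring

/-- the upper bound for every Boolean function of degree at most `d` -/
lemma upper {d : ℕ} (hd : 3 ≤ d) {n : ℕ} (f : (Fin n → ℤˣ) → ℤˣ) (hf : DL f d) :
    lin f ≤ ((d : ℝ) + 1) / (2 * d) * Real.sqrt (((d : ℝ) - 1) * (3 * d + 1)) := by
  obtain ⟨p, hp, _, h2, h0⟩ := exists_poly (R_cases f) (DL_fh hf)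
  have h3 := poly_bound hd p hp h2
  rw [h0, bound_identity hd] at h3
  have hd3 : (3 : ℝ) ≤ d := by exact_mod_cast hd
  have hnn : 0 ≤ ((d : ℝ) + 1) / (2 * d) * Real.sqrt (((d : ℝ) - 1) * (3 * d + 1)) := by
    positivity
  exact (abs_le_of_sq_le_sq' h3 hnn).2

end P047
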